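import Mathlib
import Vale.Agent.P043.Rows.Dilation

/-!
Helper for P043: tilings of an abelian group by a finite set, the dilated equations and their
averages.
-/

namespace Vale.Agent.P043.Space

open Finset Filter Topology

variable {G : Type*} [AddCommGroup G]

/-- `A` is a tiling by `F`. -/
def Tiles (A : Set G) (F : Finset G) : Prop := ∀ x, ∃! f, f ∈ F ∧ x - f ∈ A

/-- The dilation step. -/
def step (F : Finset G) : ℤ := ((F.card + 2).factorial : ℤ)

/-- The indicator with real values. -/
noncomputable def ind (A : Set G) : G → ℝ := A.indicator 1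

theorem ind_mem_Icc (A : Set G) (x : G) : ind A x ∈ Set.Icc (0 : ℝ) 1 := by
  by_cases h : x ∈ A <;> simp [ind, h]

theorem ind_of_mem {A : Set G} {x : G} (h : x ∈ A) : ind A x = 1 := by simp [ind, h]

theorem ind_of_notMem {A : Set G} {x : G} (h : x ∉ A) : ind A x = 0 := by simp [ind, h]

theorem ind_congr {H : Type*} [AddCommGroup H] {S : Set G} {T : Set H} {y : G} {z : H}
    (h : y ∈ S ↔ z ∈ T) : ind S y = ind T z := by
  by_cases hy : y ∈ S
  · rw [ind_of_mem hy, ind_of_mem (h.1 hy)]
  · rw [ind_of_notMem hy, ind_of_notMem fun hz => hy (h.2 hz)]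

/-- All dilated tiling equations. -/
def Eqn (F : Finset G) (φ : G → ℝ) : Prop :=
  (∀ x, φ x ∈ Set.Icc (0 : ℝ) 1) ∧
    ∀ (n : ℕ) x, ∑ g ∈ F, φ (x - (1 + step F * n) • g) = 1

/-- A tiling satisfies all dilated equations. -/
theorem eqn_ind {A : Set G} {F : Finset G} (h : Tiles A F) : Eqn F (ind A) := by
  classical
  refine ⟨ind_mem_Icc A, fun n x => ?_⟩
  set a : G → ℤ := fun y => if y ∈ A then 1 else 0 with ha
  have hcast : ∀ y, ind A y = (a y : ℝ) := fun y => by
    by_cases hy : y ∈ A <;> simp [ha, ind, hy]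
  have hbase : ∀ y, ∑ i : F, (1 : ℤ) * a (y - (i : G)) = 1 := by
    intro y
    obtain ⟨f, ⟨hf, hfA⟩, huniq⟩ := h y
    simp only [one_mul]
    rw [Finset.sum_coe_sort F fun f => a (y - f), sum_eq_single f]
    · simp [ha, hfA]
    · intro g hg hgf
      have : y - g ∉ A := fun hgA => hgf (huniq g ⟨hg, hgA⟩)
      simp [ha, this]
    · exact fun h' => absurd hf h'
  have hcard : 0 < F.card := by
    obtain ⟨f, ⟨hf, -⟩, -⟩ := h x
    exact Finset.card_pos.2 ⟨f, hf⟩
  have hd := Rows.sum_dilate (G := G) (ι := F) (fun _ => 1) (fun i => (i : G)) a 1 (F.card + 2)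
    (fun w y => by
      have h1 : ∀ i : F, 0 ≤ (1 : ℤ) * a (y - w i) ∧ (1 : ℤ) * a (y - w i) ≤ 1 := fun i => by
        simp only [ha, one_mul]; split_ifs <;> simp
      have h2 : 0 ≤ ∑ i : F, (1 : ℤ) * a (y - w i) := sum_nonneg fun i _ => (h1 i).1
      have h3 : ∑ i : F, (1 : ℤ) * a (y - w i) ≤ F.card := by
        refine (sum_le_sum fun i _ => (h1 i).2).trans ?_
        simp
      rw [abs_lt]
      push_cast
      constructor <;> linarith)
    (fun p hp hB => by
      have := Fact.mk hp
      rw [ZMod.pow_card_sub_one_eq_one, one_mul]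
      simp only [sum_const, card_univ, Fintype.card_coe, nsmul_eq_mul, mul_one]
      push_cast
      rw [Ne, ZMod.natCast_eq_zero_iff]
      intro hdvd
      have := Nat.le_of_dvd hcard hdvd
      omega)
    hbase (1 + (F.card + 2).factorial * n)
    (fun p hp hdvd => by
      by_contra hlt
      have h1 : p ∣ (F.card + 2).factorial * n :=
        (Nat.dvd_factorial hp.pos (by omega)).mul_right n
      exact hp.not_dvd_one ((Nat.dvd_add_left h1).1 hdvd))
    (by omega) x
  simp only [one_mul] at hd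
  rw [Finset.sum_coe_sort F fun f => a (x - (1 + (F.card + 2).factorial * n) • f)] at hd
  have hd' : ((∑ f ∈ F, a (x - (1 + (F.card + 2).factorial * n) • f) : ℤ) : ℝ) = 1 := by
    rw [hd]; simp
  rw [← hd', Int.cast_sum]
  refine sum_congr rfl fun f _ => ?_
  rw [hcast, ← natCast_zsmul, step]
  push_cast
  rfl

/-- Averaging the equations based at `h`: one summand for every point, periodic along it. -/
theorem exists_average [DecidableEq G] {F : Finset G} {φ : G → ℝ} (hφ : Eqn F φ) {h : G} (hh : h ∈ F) :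
    ∃ ψ : G → G → ℝ, (∀ g, Eqn F (ψ g)) ∧
      (∀ g x, ψ g (x + step F • (g - h)) = ψ g x) ∧
      (∀ v, (∀ x, φ (x + v) = φ x) → ∀ g x, ψ g (x + v) = ψ g x) ∧
      ∀ x, φ x = 1 - ∑ g ∈ F.erase h, ψ g x := by
  classical
  set q : ℤ := step F with hq
  let T : ℕ → G → G → ℝ := fun N g x =>
    (∑ n ∈ range N, φ (x - (1 + q * n) • (g - h))) / N
  have hT : ∀ N g x, T N g x ∈ Set.Icc (0 : ℝ) 1 := fun N g x => by
    refine ⟨div_nonneg (sum_nonneg fun n _ => (hφ.1 _).1) (Nat.cast_nonneg N), ?_⟩
    refine div_le_one_of_le₀ ?_ (Nat.cast_nonneg N)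
    refine (sum_le_sum fun n _ => (hφ.1 _).2).trans ?_
    simp
  set U : Ultrafilter ℕ := Ultrafilter.of atTop
  have hU : (U : Filter ℕ) ≤ atTop := Ultrafilter.of_le atTop
  have hlim : ∀ g x, ∃ l ∈ Set.Icc (0 : ℝ) 1, Tendsto (fun N => T N g x) U (𝓝 l) := fun g x => by
    obtain ⟨l, hl, hle⟩ := isCompact_Icc.ultrafilter_le_nhds (U.map fun N => T N g x)
      (le_principal_iff.2 (Ultrafilter.mem_map.2 (univ_mem' fun N => hT N g x)))
    exact ⟨l, hl, hle⟩
  choose ψ hψI hψ using hlim
  have hev : ∀ᶠ N : ℕ in (U : Filter ℕ), (N : ℝ) ≠ 0 := by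
    filter_upwards [hU (eventually_gt_atTop 0)] with N hN
    exact Nat.cast_ne_zero.2 (Nat.pos_iff_ne_zero.1 hN)
  have hsum : ∀ x, ∑ g ∈ F, ψ g x = 1 := fun x => by
    refine tendsto_nhds_unique (tendsto_finsetSum _ fun g _ => hψ g x)
      (tendsto_const_nhds.congr' ?_)
    filter_upwards [hev] with N hN
    simp only [T, ← sum_div]
    rw [sum_comm, sum_congr rfl (g := fun _ => (1 : ℝ))]
    · simp [hN]
    · intro n _
      rw [← hφ.2 n (x + (1 + q * n) • h)]
      refine sum_congr rfl fun g _ => congrArg φ ?_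
      rw [← hq, smul_sub]
      abel
  refine ⟨ψ, fun g => ⟨hψI g, fun n x => ?_⟩, fun g x => ?_, fun v hv g x => ?_, fun x => ?_⟩
  · refine tendsto_nhds_unique (tendsto_finsetSum _ fun k _ => hψ g _)
      (tendsto_const_nhds.congr' ?_)
    filter_upwards [hev] with N hN
    simp only [T, ← sum_div]
    rw [sum_comm, sum_congr rfl (g := fun _ => (1 : ℝ))]
    · simp [hN]
    · intro m _
      rw [← hφ.2 n (x - (1 + q * m) • (g - h))]
      refine sum_congr rfl fun k _ => congrArg φ ?_
      rw [← hq]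
      abel
  · have hshift : ∀ N : ℕ, ∑ n ∈ range N, φ (x + q • (g - h) - (1 + q * n) • (g - h))
        + φ (x - (1 + q * ((N : ℤ) - 1)) • (g - h))
        = φ (x - (1 + q * (-1)) • (g - h)) + ∑ n ∈ range N, φ (x - (1 + q * n) • (g - h)) := by
      intro N
      induction N with
      | zero => simp
      | succ N ih =>
        rw [sum_range_succ, sum_range_succ]
        have e : x + q • (g - h) - (1 + q * (N : ℤ)) • (g - h) =
            x - (1 + q * ((N : ℤ) - 1)) • (g - h) := by
          rw [show (1 + q * ((N : ℤ) - 1)) = (1 + q * (N : ℤ)) - q by ring,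
            sub_smul _ q (g - h)]
          abel
        rw [e]
        push_cast
        rw [show ((N : ℤ) + 1 - 1) = N by ring]
        linarith
    refine sub_eq_zero.1 (tendsto_nhds_unique ((hψ g (x + q • (g - h))).sub (hψ g x)) ?_)
    refine squeeze_zero_norm (fun N => ?_) (tendsto_one_div_atTop_nhds_zero_nat.mono_left hU)
    rw [Real.norm_eq_abs]
    simp only [T, ← sub_div, abs_div, Nat.abs_cast]
    refine div_le_div_of_nonneg_right ?_ (Nat.cast_nonneg N)
    have := hshift N
    have := (hφ.1 (x - (1 + q * ((N : ℤ) - 1)) • (g - h))).1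
    have := (hφ.1 (x - (1 + q * ((N : ℤ) - 1)) • (g - h))).2
    have := (hφ.1 (x - (1 + q * (-1)) • (g - h))).1
    have := (hφ.1 (x - (1 + q * (-1)) • (g - h))).2
    rw [abs_le]
    constructor <;> linarith
  · refine tendsto_nhds_unique (hψ g (x + v)) ((hψ g x).congr fun N => ?_)
    simp only [T]
    congr 1
    refine sum_congr rfl fun n _ => ?_
    rw [show x + v - (1 + q * (n : ℤ)) • (g - h) = x - (1 + q * (n : ℤ)) • (g - h) + v by abel, hv]
  · have hh' : ψ h x = φ x := by
      refine tendsto_nhds_unique (hψ h x) (tendsto_const_nhds.congr' ?_)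
      filter_upwards [hev] with N hN
      simp [T, mul_div_cancel_left₀ _ hN]
    rw [← hh', eq_sub_iff_add_eq, add_sum_erase F (fun g => ψ g x) hh]
    exact hsum x

end Vale.Agent.P043.Space
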