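import Mathlib
import Vale.Agent.P043.Space.Basic

/-!
Helper for P043: if only finitely many hyperplane directions have no parallel hyperplane meeting
the tile once, a tiling is a periodic function plus functions constant on those hyperplanes.
-/

namespace Vale.Agent.P043.Space

open Finset

variable {d : ℕ}

/-- The dot product, as a homomorphism. -/
def dot (v : Fin d → ℤ) : (Fin d → ℤ) →+ ℤ where
  toFun w := ∑ k, v k * w k
  map_zero' := by simp
  map_add' w w' := by simp [mul_add, sum_add_distrib]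

theorem dot_apply (v w : Fin d → ℤ) : dot v w = ∑ k, v k * w k := rfl

theorem dot_self_pos {v : Fin d → ℤ} (hv : v ≠ 0) : 0 < dot v v := by
  obtain ⟨k, hk⟩ := Function.ne_iff.1 hv
  exact sum_pos' (fun i _ => mul_self_nonneg _) ⟨k, mem_univ k, mul_self_pos.2 hk⟩

theorem dot_smul (v : Fin d → ℤ) (c : ℤ) (w : Fin d → ℤ) : dot v (c • w) = c * dot v w := by
  rw [map_zsmul, smul_eq_mul]

/-- Some hyperplane orthogonal to `v` meets `F` exactly once. -/
def Lone (F : Finset (Fin d → ℤ)) (v : Fin d → ℤ) : Prop :=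
  ∃ h ∈ F, ∀ g ∈ F, g ≠ h → ∑ k, v k * g k ≠ ∑ k, v k * h k

/-- Outside the listed directions some hyperplane meets `F` exactly once. -/
def AllLone (F : Finset (Fin d → ℤ)) {m : ℕ} (V : Fin m → Fin d → ℤ) : Prop :=
  ∀ v : Fin d → ℤ, v ≠ 0 → (∀ i, ∀ a b : ℤ, a ≠ 0 → a • v ≠ b • V i) → Lone F v

/-- The periods of a function. -/
def per (φ : (Fin d → ℤ) → ℝ) : AddSubgroup (Fin d → ℤ) where
  carrier := {w | ∀ x, φ (x + w) = φ x}
  zero_mem' := fun x => by rw [add_zero]
  add_mem' := fun {a b} ha hb x => by rw [← add_assoc, hb, ha]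
  neg_mem' := fun {a} ha x => by rw [← ha (x + -a), neg_add_cancel_right]

/-- Integer vectors as rational ones. -/
def toQ (w : Fin d → ℤ) : Fin d → ℚ := fun k => (w k : ℚ)

theorem toQ_smul (c : ℤ) (w : Fin d → ℤ) : toQ (c • w) = (c : ℚ) • toQ w := by
  funext k; simp [toQ]

/-- The rational span of the periods. -/
noncomputable def perQ (φ : (Fin d → ℤ) → ℝ) : Submodule ℚ (Fin d → ℚ) :=
  Submodule.span ℚ (toQ '' (per φ : Set (Fin d → ℤ)))

/-- A vector in the rational span has a multiple among the periods. -/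
theorem exists_multiple {φ : (Fin d → ℤ) → ℝ} {w : Fin d → ℤ} (hw : toQ w ∈ perQ φ) :
    ∃ c : ℤ, c ≠ 0 ∧ c • w ∈ per φ := by
  suffices h : ∀ u ∈ perQ φ, ∃ c : ℤ, c ≠ 0 ∧ ∃ p ∈ per φ, (c : ℚ) • u = toQ p by
    obtain ⟨c, hc, p, hp, e⟩ := h _ hw
    refine ⟨c, hc, ?_⟩
    rw [← toQ_smul] at e
    have : c • w = p := funext fun k => by
      have := congrFun e k
      simp [toQ] at this
      exact_mod_cast this
    rwa [this]
  intro u hu
  induction hu using Submodule.span_induction with
  | mem x hx =>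
    obtain ⟨p, hp, rfl⟩ := hx
    exact ⟨1, one_ne_zero, p, hp, by simp⟩
  | zero => exact ⟨1, one_ne_zero, 0, zero_mem _, by funext k; simp [toQ]⟩
  | add x y _ _ hx hy =>
    obtain ⟨a, ha, p, hp, ep⟩ := hx
    obtain ⟨b, hb, r, hr, er⟩ := hy
    refine ⟨a * b, mul_ne_zero ha hb, b • p + a • r, add_mem (zsmul_mem hp b) (zsmul_mem hr a), ?_⟩
    rw [show toQ (b • p + a • r) = (b : ℚ) • toQ p + (a : ℚ) • toQ r by funext k; simp [toQ],
      ← ep, ← er, smul_add, smul_smul, smul_smul]
    push_cast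
    rw [mul_comm (b : ℚ)]
  | smul t x _ hx =>
    obtain ⟨a, ha, p, hp, ep⟩ := hx
    refine ⟨a * t.den, mul_ne_zero ha (by exact_mod_cast t.den_nz), t.num • p, zsmul_mem hp _, ?_⟩
    rw [toQ_smul, ← ep, smul_smul, smul_smul]
    congr 1
    push_cast
    rw [← Rat.mul_den_eq_num t]
    ring

/-- A vector outside the rational span is seen by an integer normal of the periods. -/
theorem exists_normal {φ : (Fin d → ℤ) → ℝ} {w : Fin d → ℤ} (hw : toQ w ∉ perQ φ) :
    ∃ v : Fin d → ℤ, (∀ p ∈ per φ, dot v p = 0) ∧ dot v w ≠ 0 := by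
  classical
  obtain ⟨f, hfw, hf⟩ := Submodule.exists_dual_map_eq_bot_of_notMem hw inferInstance
  let c : Fin d → ℚ := fun k => f (Pi.single k 1)
  have hfc : ∀ u : Fin d → ℚ, f u = ∑ k, c k * u k := fun u => by
    conv_lhs => rw [pi_eq_sum_univ' u]
    simp [c, map_sum, map_smul, mul_comm]
  set M : ℕ := ∏ k, (c k).den with hM
  have hM0 : (M : ℚ) ≠ 0 := by
    simp [hM, Finset.prod_ne_zero_iff]
  have hex : ∀ k, ∃ z : ℤ, (z : ℚ) = M * c k := fun k => by
    obtain ⟨e, he⟩ : (c k).den ∣ M := Finset.dvd_prod_of_mem _ (mem_univ k)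
    refine ⟨e * (c k).num, ?_⟩
    rw [he]
    push_cast
    rw [← Rat.mul_den_eq_num (c k)]
    ring
  choose v hv using hex
  have key : ∀ u : Fin d → ℤ, ((dot v u : ℤ) : ℚ) = M * f (toQ u) := fun u => by
    rw [hfc, mul_sum, dot_apply]
    push_cast
    simp [hv, toQ, mul_assoc]
  refine ⟨v, fun p hp => ?_, fun h0 => ?_⟩
  · have h1 : f (toQ p) = 0 := by
      have : f (toQ p) ∈ (perQ φ).map f :=
        Submodule.mem_map_of_mem (Submodule.subset_span ⟨p, hp, rfl⟩)
      rwa [hf, Submodule.mem_bot] at this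
    have := key p
    rw [h1, mul_zero] at this
    exact_mod_cast this
  · have := key w
    rw [h0, Int.cast_zero, eq_comm, mul_eq_zero] at this
    exact this.elim hM0 hfw

/-- A periodic function plus functions constant on the hyperplanes orthogonal to the `V i`,
up to a lattice. -/
def Splits {m : ℕ} (V : Fin m → Fin d → ℤ) (φ : (Fin d → ℤ) → ℝ) : Prop :=
  ∃ (L : ℤ) (P : (Fin d → ℤ) → ℝ) (u : Fin m → (Fin d → ℤ) → ℝ), 0 < L ∧
    (∀ w, L • w ∈ per P) ∧ (∀ i w, dot (V i) w = 0 → L • w ∈ per (u i)) ∧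
    (∀ x, φ x = P x + ∑ i, u i x) ∧ ∀ i, ∃ B, ∀ x, |u i x| ≤ B

theorem splits_const {m : ℕ} (V : Fin m → Fin d → ℤ) (c : ℝ) : Splits V fun _ => c :=
  ⟨1, fun _ => c, fun _ _ => 0, one_pos, fun _ _ => rfl, fun _ _ _ _ => rfl, fun x => by simp, fun _ => ⟨0, fun x => by simp⟩⟩

theorem Splits.sub {m : ℕ} {V : Fin m → Fin d → ℤ} {φ ψ : (Fin d → ℤ) → ℝ} (h : Splits V φ)
    (h' : Splits V ψ) : Splits V fun x => φ x - ψ x := by
  obtain ⟨L, P, u, hL, hP, hu, e, hB⟩ := h
  obtain ⟨L', P', u', hL', hP', hu', e', hB'⟩ := h'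
  refine ⟨L * L', fun x => P x - P' x, fun i x => u i x - u' i x, mul_pos hL hL', fun w x => ?_,
    fun i w hw x => ?_, fun x => ?_, fun i => ?_⟩
  · simp only
    rw [show P (x + (L * L') • w) = P x by rw [mul_smul]; exact hP _ x,
      show P' (x + (L * L') • w) = P' x by rw [mul_comm, mul_smul]; exact hP' _ x]
  · simp only
    rw [show u i (x + (L * L') • w) = u i x by
        rw [mul_smul]; exact hu i _ (by rw [dot_smul, hw, mul_zero]) x,
      show u' i (x + (L * L') • w) = u' i x by
        rw [mul_comm, mul_smul]; exact hu' i _ (by rw [dot_smul, hw, mul_zero]) x]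
  · simp only
    rw [e, e', sum_sub_distrib]; ring
  · obtain ⟨B, hb⟩ := hB i
    obtain ⟨C, hc⟩ := hB' i
    exact ⟨B + C, fun x => (abs_sub _ _).trans (add_le_add (hb x) (hc x))⟩

theorem Splits.congr {m : ℕ} {V : Fin m → Fin d → ℤ} {φ ψ : (Fin d → ℤ) → ℝ} (h : Splits V φ)
    (e : ∀ x, φ x = ψ x) : Splits V ψ := by rwa [← funext e]

/-- The recursion over the rank of the periods. -/
theorem splits_of_eqn {m : ℕ} {V : Fin m → Fin d → ℤ} (hV : ∀ i, V i ≠ 0)
    {F : Finset (Fin d → ℤ)} (hF : AllLone F V) :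
    ∀ (n : ℕ) (φ : (Fin d → ℤ) → ℝ), Eqn F φ → d ≤ Module.finrank ℚ (perQ φ) + n →
      Splits V φ := by
  classical
  intro n
  induction n using Nat.strong_induction_on with
  | _ n ih => ?_
  intro φ hφ hn
  -- if some good direction is orthogonal to all periods, average and recurse
  by_cases hgood : ∃ v, v ≠ 0 ∧ (∀ p ∈ per φ, dot v p = 0) ∧
      ∀ i, ∀ a b : ℤ, a ≠ 0 → a • v ≠ b • V i
  · obtain ⟨v, hv, hvp, hpar⟩ := hgood
    obtain ⟨h, hh, halone⟩ := hF v hv hpar
    obtain ⟨ψ, hψ, hψg, hψv, hsum⟩ := exists_average hφ hh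
    refine Splits.congr ?_ fun x => (hsum x).symm
    have hone : ∀ g ∈ F.erase h, Splits V (ψ g) := by
      intro g hg
      obtain ⟨hgh, hgF⟩ := mem_erase.1 hg
      have hne : dot v (g - h) ≠ 0 := by
        rw [map_sub, sub_ne_zero, dot_apply, dot_apply]
        exact halone g hgF hgh
      have hlt : perQ φ < perQ (ψ g) := by
        refine lt_of_le_of_ne (Submodule.span_mono (Set.image_mono fun w hw => hψv w hw g)) ?_
        intro e
        have hmem : toQ (step F • (g - h)) ∈ perQ φ :=
          e ▸ Submodule.subset_span ⟨_, hψg g, rfl⟩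
        obtain ⟨c, hc, hcp⟩ := exists_multiple hmem
        have := hvp _ hcp
        rw [dot_smul, dot_smul] at this
        exact mul_ne_zero hc (mul_ne_zero (by simp [step, Nat.factorial_ne_zero]) hne) this
      have h1 := Submodule.finrank_lt_finrank_of_lt hlt
      have h2 : Module.finrank ℚ (perQ (ψ g)) ≤ d := by
        simpa using Submodule.finrank_le (perQ (ψ g))
      exact ih (n - 1) (by omega) _ (hψ g) (by omega)
    have : ∀ s ⊆ F.erase h, Splits V fun x => 1 - ∑ g ∈ s, ψ g x := by
      intro s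
      induction s using Finset.induction_on with
      | empty => intro _; simpa using splits_const V 1
      | @insert g s hgs ihs =>
        intro hs
        refine ((ihs fun k hk => hs (mem_insert_of_mem hk)).sub
          (hone g (hs (mem_insert_self g s)))).congr fun x => ?_
        rw [sum_insert hgs]; ring
    exact this _ subset_rfl
  push Not at hgood
  by_cases htop : ∀ w, toQ w ∈ perQ φ
  · -- full rank: periodic
    choose c hc hcp using fun k : Fin d => exists_multiple (htop (Pi.single k 1))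
    refine ⟨|∏ k, c k|, φ, fun _ _ => 0, abs_pos.2 (prod_ne_zero_iff.2 fun k _ => hc k),
      fun w => ?_, fun _ _ _ _ => rfl, fun x => by simp, fun _ => ⟨0, fun x => by simp⟩⟩
    rw [pi_eq_sum_univ' w, smul_sum]
    refine sum_mem fun k _ => ?_
    obtain ⟨e, he⟩ : c k ∣ |∏ k, c k| := (dvd_abs _ _).2 (dvd_prod_of_mem _ (mem_univ k))
    rw [smul_comm, he, mul_comm, mul_smul]
    exact zsmul_mem (zsmul_mem (hcp k) e) _
  -- the periods fill one of the listed hyperplanes
  push Not at htop
  obtain ⟨w₀, hw₀⟩ := htop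
  obtain ⟨v, hvp, hvw⟩ := exists_normal hw₀
  have hv : v ≠ 0 := fun e => hvw (by simp [e, dot_apply])
  obtain ⟨i, a, b, ha, hab⟩ := hgood v hv hvp
  have hb : b ≠ 0 := fun e => by
    rw [e, zero_smul, smul_eq_zero] at hab
    exact hab.elim ha hv
  have hVp : ∀ p ∈ per φ, dot (V i) p = 0 := fun p hp => by
    have h1 : b * dot (V i) p = a * dot v p := by
      have := congrArg (fun z => dot z p) hab
      simpa [dot_apply, mul_assoc, ← mul_sum] using this.symm
    rw [hvp p hp, mul_zero] at h1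
    exact (mul_eq_zero.1 h1).resolve_left hb
  have hker : ∀ w, dot (V i) w = 0 → toQ w ∈ perQ φ := by
    intro w hw
    by_contra hnot
    obtain ⟨v', hv'p, hv'w⟩ := exists_normal hnot
    let comb : Fin (m + 1) → Fin d → ℤ := fun t => V i + ((t : ℕ) + 1 : ℤ) • v'
    have hdot : ∀ t p, dot (comb t) p = dot (V i) p + ((t : ℕ) + 1 : ℤ) * dot v' p := fun t p => by
      simp only [comb, dot_apply, Pi.add_apply, Pi.smul_apply, smul_eq_mul, add_mul, sum_add_distrib,
        mul_sum, mul_assoc]
    have hne : ∀ t, comb t ≠ 0 := fun t e => by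
      have := hdot t w
      rw [e, hw, zero_add] at this
      simp [dot_apply] at this
      rcases this with h | h
      · omega
      · exact hv'w (by simpa [dot_apply] using h)
    choose idx aa bb haa habb using fun t => hgood (comb t) (hne t) fun p hp => by
      rw [hdot, hVp p hp, hv'p p hp, mul_zero, add_zero]
    obtain ⟨s, t, hst, he⟩ := Fintype.exists_ne_map_eq_of_card_lt idx (by simp)
    have hbs : bb s ≠ 0 := fun e => by
      have := habb s
      rw [e, zero_smul, smul_eq_zero] at this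
      exact this.elim (haa s) (hne s)
    have e1 : aa s * dot (comb s) (V i) = bb s * dot (V (idx s)) (V i) ∧
        aa t * dot (comb t) w = bb t * dot (V (idx t)) w ∧
        aa s * dot (comb s) w = bb s * dot (V (idx s)) w ∧
        aa t * dot (comb t) (V i) = bb t * dot (V (idx t)) (V i) := by
      refine ⟨?_, ?_, ?_, ?_⟩
      all_goals
        first
        | (have := congrArg (fun z => dot z (V i)) (habb s)
           simpa [dot_apply, mul_assoc, ← mul_sum] using this)
        | (have := congrArg (fun z => dot z (V i)) (habb t)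
           simpa [dot_apply, mul_assoc, ← mul_sum] using this)
        | (have := congrArg (fun z => dot z w) (habb s)
           simpa [dot_apply, mul_assoc, ← mul_sum] using this)
        | (have := congrArg (fun z => dot z w) (habb t)
           simpa [dot_apply, mul_assoc, ← mul_sum] using this)
    obtain ⟨f1, f2, f3, f4⟩ := e1
    rw [← he] at f2 f4
    rw [hdot, hw, zero_add] at f2 f3
    rw [hdot] at f1 f4
    have hS : 0 < dot (V i) (V i) := dot_self_pos (hV i)
    set X := dot (V (idx s)) w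
    set Y := dot (V (idx s)) (V i)
    set Z := dot v' (V i)
    set W := dot v' w
    set S := dot (V i) (V i)
    have hcross : aa s * aa t * (((s : ℕ) : ℤ) - ((t : ℕ) : ℤ)) * S * W * (bb s * bb t) = 0 := by
      linear_combination (bb s * bb t) * (aa t * (S + ((t : ℕ) + 1 : ℤ) * Z)) * f3
        - (bb s * bb t) * (aa s * (S + ((s : ℕ) + 1 : ℤ) * Z)) * f2
        + (bb s * bb t) * (bb s * X) * f4 - (bb s * bb t) * (bb t * X) * f1
    have hbt : bb t ≠ 0 := fun e => by
      have := habb t
      rw [e, zero_smul, smul_eq_zero] at this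
      exact this.elim (haa t) (hne t)
    have hst' : (((s : ℕ) : ℤ) - ((t : ℕ) : ℤ)) ≠ 0 := by
      have : (s : ℕ) ≠ (t : ℕ) := fun e => hst (Fin.ext e)
      omega
    simp [haa s, haa t, hst', hS.ne', hbs, hbt, hv'w, W] at hcross
  set c₀ := dot (V i) (V i) with hc₀
  have hc₀0 : 0 < c₀ := dot_self_pos (hV i)
  let gen : Fin d → Fin d → ℤ := fun k => c₀ • Pi.single k 1 - V i k • V i
  have hgen : ∀ k, dot (V i) (gen k) = 0 := fun k => by
    simp only [gen]
    rw [map_sub, dot_smul, dot_smul, ← hc₀,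
      show dot (V i) (Pi.single k 1) = V i k by simp [dot_apply, Pi.single_apply]]
    ring
  choose cc hcc hccp using fun k => exists_multiple (hker _ (hgen k))
  refine ⟨|∏ k, cc k| * c₀, fun _ => 0, fun i' x => if i' = i then φ x else 0,
    mul_pos (abs_pos.2 (prod_ne_zero_iff.2 fun k _ => hcc k)) hc₀0, fun _ _ => rfl,
    fun i' w hw x => ?_, fun x => by simp, fun i' => ⟨1, fun x => ?_⟩⟩
  swap
  · simp only
    rw [abs_le]
    split_ifs <;> constructor <;> linarith [(hφ.1 x).1, (hφ.1 x).2]
  simp only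
  split_ifs with hi'
  · subst hi'
    have e : c₀ • w = ∑ k, w k • gen k := by
      funext l
      simp only [gen, Finset.sum_apply, Pi.smul_apply, Pi.sub_apply, smul_eq_mul, mul_sub, sum_sub_distrib,
        Pi.single_apply, mul_ite, mul_one, mul_zero, sum_ite_eq, mem_univ, if_true]
      rw [show ∑ k, w k * (V i' k * V i' l) = dot (V i') w * V i' l by
        rw [dot_apply, sum_mul]; exact sum_congr rfl fun k _ => by ring, hw]
      ring
    have hmem : (|∏ k, cc k| * c₀) • w ∈ per φ := by
      rw [mul_smul, e, smul_sum]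
      refine sum_mem fun k _ => ?_
      obtain ⟨z, hz⟩ : cc k ∣ |∏ k, cc k| := (dvd_abs _ _).2 (dvd_prod_of_mem _ (mem_univ k))
      rw [smul_comm, hz, mul_comm, mul_smul]
      exact zsmul_mem (zsmul_mem (hccp k) z) _
    exact hmem x
  · rfl

end Vale.Agent.P043.Space
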