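import Mathlib
import Vale.Agent.P043.Space.Decomp

/-!
Helper for P043: a set periodic along a hyperplane can be replaced by a fully periodic one with
the same counting function, when that function is fully periodic.
-/

namespace Vale.Agent.P043.Space

open Finset

variable {d : ℕ}

/-- The number of translates of a point by `-F` lying in the set, with real values. -/
noncomputable def cnt (S : Set (Fin d → ℤ)) (F : Finset (Fin d → ℤ)) (x : Fin d → ℤ) : ℝ :=
  ∑ f ∈ F, ind S (x - f)

theorem cnt_inv {S : Set (Fin d → ℤ)} {F : Finset (Fin d → ℤ)} {w : Fin d → ℤ}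
    (h : ∀ y, (y + w ∈ S ↔ y ∈ S)) : w ∈ per (cnt S F) := fun x =>
  sum_congr rfl fun f _ => ind_congr (by rw [show x + w - f = x - f + w by abel]; exact h _)

/-- The periodic replacement. -/
theorem exists_periodic_piece {v : Fin d → ℤ} (hv : v ≠ 0) {L : ℤ} (hL : 0 < L)
    {S : Set (Fin d → ℤ)} (hS : ∀ y w, dot v w = 0 → (y + L • w ∈ S ↔ y ∈ S))
    (F : Finset (Fin d → ℤ)) {L₂ : ℤ} (hL₂ : 0 < L₂) (hg : ∀ w, L₂ • w ∈ per (cnt S F)) :
    ∃ (S' : Set (Fin d → ℤ)) (e : ℤ), 0 < e ∧ (∀ y w, (y + e • w ∈ S' ↔ y ∈ S')) ∧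
      ∀ x, cnt S' F x = cnt S F x := by
  classical
  set δ : ℤ := dot v v with hδ
  have hδ0 : 0 < δ := dot_self_pos hv
  set M : ℤ := ∑ f ∈ F, |dot v f| with hM
  have hMf : ∀ f ∈ F, -M ≤ dot v f ∧ dot v f ≤ M := fun f hf => abs_le.1
    (single_le_sum (f := fun f => |dot v f|) (fun f _ => abs_nonneg _) hf)
  have hM0 : 0 ≤ M := sum_nonneg fun f _ => abs_nonneg _
  set R : ℤ := 2 * M + 1 with hR
  set B : Finset (Fin d → ℤ) := Fintype.piFinset fun _ => Finset.Ico 0 (L * δ) with hB
  set C : ℤ := R + ∑ r ∈ B, |dot v r| with hC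
  set Box : Finset (Fin d → ℤ) :=
    (B ×ˢ Finset.Icc (-C) C).image fun z => z.1 + (L * z.2) • v with hBox
  have hLδ : 0 < L * δ := mul_pos hL hδ0
  have hbox : ∀ y, 0 ≤ dot v y → dot v y < R →
      ∃ z ∈ Box, ∃ w, dot v w = 0 ∧ y = z + L • w := by
    intro y h1 h2
    set r : Fin d → ℤ := fun k => y k % (L * δ)
    set Q : Fin d → ℤ := fun k => y k / (L * δ)
    have hr : r ∈ B := by
      simp [hB, r, Int.emod_nonneg _ hLδ.ne', Int.emod_lt_of_pos _ hLδ]
    have hy : y = r + (L * δ) • Q := by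
      funext k; simp [r, Q, Int.emod_add_mul_ediv]
    refine ⟨r + (L * dot v Q) • v, mem_image.2 ⟨(r, dot v Q), mem_product.2 ⟨hr, ?_⟩, rfl⟩,
      δ • Q - dot v Q • v, by rw [map_sub, dot_smul, dot_smul, hδ]; ring, ?_⟩
    · have e : L * δ * dot v Q = dot v y - dot v r := by
        conv_rhs => rw [hy, map_add, dot_smul]
        ring
      have hb : |dot v r| ≤ ∑ r ∈ B, |dot v r| :=
        single_le_sum (f := fun r => |dot v r|) (fun r _ => abs_nonneg _) hr
      have h3 : |dot v Q| ≤ |L * δ * dot v Q| := by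
        rw [abs_mul, abs_of_pos hLδ]
        exact le_mul_of_one_le_left (abs_nonneg _) (by omega)
      rw [e] at h3
      have := (abs_sub (dot v y) (dot v r))
      rw [abs_of_nonneg h1] at this
      exact Finset.mem_Icc.2 (abs_le.1 (by dsimp only; omega))
    · rw [smul_sub, smul_smul, smul_smul]
      conv_lhs => rw [hy]
      abel
  -- two equal bands
  obtain ⟨m₁, m₂, hne, heq⟩ := Finite.exists_ne_map_eq_of_infinite
    (f := fun n : ℕ => (⟨Box.filter fun y => y + ((n : ℤ) * L₂) • v ∈ S,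
      mem_powerset.2 (filter_subset _ _)⟩ : ↥Box.powerset))
  obtain ⟨n₁, n₂, hlt, heq⟩ : ∃ n₁ n₂ : ℕ, n₁ < n₂ ∧
      Box.filter (fun y => y + ((n₁ : ℤ) * L₂) • v ∈ S)
        = Box.filter (fun y => y + ((n₂ : ℤ) * L₂) • v ∈ S) := by
    have h := congrArg Subtype.val heq
    rcases lt_or_gt_of_ne hne with hl | hl
    · exact ⟨m₁, m₂, hl, h⟩
    · exact ⟨m₂, m₁, hl, h.symm⟩
  set p : Fin d → ℤ := (((n₂ : ℤ) - n₁) * L₂) • v with hp
  set T : ℤ := dot v p with hT
  have hT0 : 0 < T := by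
    rw [hT, hp, dot_smul, ← hδ]
    exact mul_pos (mul_pos (by omega) hL₂) hδ0
  set t₀ : ℤ := (n₁ : ℤ) * L₂ * δ with ht₀
  have claim : ∀ y, t₀ ≤ dot v y → dot v y < t₀ + R → (y + p ∈ S ↔ y ∈ S) := by
    intro y h1 h2
    have ht : dot v (y - ((n₁ : ℤ) * L₂) • v) = dot v y - t₀ := by
      rw [map_sub, dot_smul, ← hδ]
    obtain ⟨z, hz, w, hw, he⟩ := hbox (y - ((n₁ : ℤ) * L₂) • v) (by omega) (by omega)
    have h3 := congrArg (fun B : Finset (Fin d → ℤ) => z ∈ B) heq
    simp only [mem_filter, hz, true_and] at h3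
    rw [sub_eq_iff_eq_add] at he
    have e1 : y = z + ((n₁ : ℤ) * L₂) • v + L • w := by rw [he]; abel
    have e2 : y + p = z + ((n₂ : ℤ) * L₂) • v + L • w := by
      rw [he, hp, sub_mul, sub_smul]; abel
    rw [e2, e1, hS _ _ hw, hS _ _ hw]
    exact Iff.of_eq h3.symm
  let kk : (Fin d → ℤ) → ℤ := fun y => (dot v y - t₀) / T
  set S' : Set (Fin d → ℤ) := {y | y - kk y • p ∈ S} with hS'
  have hW' : ∀ y w, dot v w = 0 → (y + L • w ∈ S' ↔ y ∈ S') := fun y w hw => by
    have e : kk (y + L • w) = kk y := by simp only [kk, map_add, dot_smul, hw, mul_zero, add_zero]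
    show (y + L • w - kk (y + L • w) • p ∈ S ↔ y - kk y • p ∈ S)
    rw [e, show y + L • w - kk y • p = y - kk y • p + L • w by abel]
    exact hS _ _ hw
  have hp' : ∀ y, (y + p ∈ S' ↔ y ∈ S') := fun y => by
    have e : kk (y + p) = kk y + 1 := by
      simp only [kk, map_add, ← hT]
      rw [show dot v y + T - t₀ = dot v y - t₀ + 1 * T by ring, Int.add_mul_ediv_right _ _ hT0.ne']
    show (y + p - kk (y + p) • p ∈ S ↔ y - kk y • p ∈ S)
    rw [e, add_smul, one_smul, show y + p - (kk y • p + p) = y - kk y • p by abel]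
  have hpz : ∀ (j : ℤ) y, (y + j • p ∈ S' ↔ y ∈ S') := by
    intro j
    induction j using Int.induction_on with
    | zero => intro y; simp
    | succ n ih => intro y; rw [add_smul, one_smul, ← add_assoc, hp', ih]
    | pred n ih =>
      intro y
      rw [← hp', show y + (-(n : ℤ) - 1) • p + p = y + (-(n : ℤ)) • p by
        rw [sub_smul, one_smul]; abel, ih]
  have agree : ∀ (n : ℕ) (y : Fin d → ℤ), kk y = n → t₀ ≤ dot v y →
      dot v y < t₀ + T + 2 * M → (y ∈ S' ↔ y ∈ S) := by
    intro n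
    induction n with
    | zero =>
      intro y hk _ _
      show y - kk y • p ∈ S ↔ y ∈ S
      simp [hk]
    | succ n ih =>
      intro y hk h1 h2
      have ht : dot v (y - p) = dot v y - T := by rw [map_sub, hT]
      have hge : T ≤ dot v y - t₀ := by
        by_contra hcon
        have : kk y = 0 := Int.ediv_eq_zero_of_lt (by omega) (by omega)
        omega
      have hk' : kk (y - p) = n := by
        simp only [kk] at hk ⊢
        rw [ht, show dot v y - T - t₀ = dot v y - t₀ + (-1) * T by ring,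
          Int.add_mul_ediv_right _ _ hT0.ne', hk]
        push_cast; ring
      rw [← sub_add_cancel y p, hp', ih (y - p) hk' (by omega) (by omega),
        claim (y - p) (by omega) (by omega)]
  refine ⟨S', L * T, mul_pos hL hT0, fun y w => ?_, fun x => ?_⟩
  · have key : ∀ (P w : Fin d → ℤ) (a : ℤ),
        y + (L * T) • w = y + (L * a) • P + L • (T • w - a • P) := fun P w a => by
      rw [smul_sub, smul_smul, smul_smul]; abel
    rw [key p w (dot v w),
      hW' _ _ (by rw [map_sub, dot_smul, dot_smul, ← hT]; ring), hpz]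
  set j : ℤ := (dot v x - M - t₀) / T with hj
  have hpv : j • p ∈ per (cnt S F) := by
    rw [hp, smul_smul, ← mul_assoc, mul_comm _ L₂, mul_smul]
    exact hg _
  have e1 := hpv (x - j • p)
  have e2 := cnt_inv (F := F) (hpz j) (x - j • p)
  rw [sub_add_cancel] at e1 e2
  rw [e1, e2]
  refine sum_congr rfl fun f hf => ind_congr ?_
  have h1 := Int.emod_add_mul_ediv (dot v x - M - t₀) T
  have h2 := Int.emod_nonneg (dot v x - M - t₀) hT0.ne'
  have h3 := Int.emod_lt_of_pos (dot v x - M - t₀) hT0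
  rw [← hj, mul_comm T] at h1
  have ht : dot v (x - j • p - f) = dot v x - j * T - dot v f := by
    rw [map_sub, map_sub, dot_smul, hT]
  have hf' := hMf f hf
  have hk : 0 ≤ kk (x - j • p - f) := Int.ediv_nonneg (by omega) hT0.le
  exact agree (kk (x - j • p - f)).toNat _ (Int.toNat_of_nonneg hk).symm (by omega) (by omega)

end Vale.Agent.P043.Space
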