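import Mathlib
import Vale.Agent.P043.Space.Periodic

/-!
Helper for P043: means along progressions.
-/

namespace Vale.Agent.P043.Space

open Finset Filter Topology

variable {d : ℕ}

/-- A bounded function. -/
def Bdd (φ : (Fin d → ℤ) → ℝ) : Prop := ∃ B, ∀ x, |φ x| ≤ B

theorem bdd_ind (A : Set (Fin d → ℤ)) : Bdd (ind A) :=
  ⟨1, fun x => abs_le.2 ⟨by linarith [(ind_mem_Icc A x).1], (ind_mem_Icc A x).2⟩⟩

theorem Bdd.sum {α : Type*} {s : Finset α} {φ : α → (Fin d → ℤ) → ℝ} (h : ∀ a ∈ s, Bdd (φ a)) :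
    Bdd fun x => ∑ a ∈ s, φ a x := by
  classical
  induction s using Finset.induction_on with
  | empty => exact ⟨0, fun x => by simp⟩
  | @insert a s ha ih =>
    obtain ⟨B, hB⟩ := h a (mem_insert_self a s)
    obtain ⟨C, hC⟩ := ih fun b hb => h b (mem_insert_of_mem hb)
    exact ⟨B + C, fun x => by simp only [sum_insert ha]; exact (abs_add_le _ _).trans (add_le_add (hB x) (hC x))⟩

theorem Bdd.sub {φ ψ : (Fin d → ℤ) → ℝ} (h : Bdd φ) (h' : Bdd ψ) : Bdd fun x => φ x - ψ x :=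
  h.elim fun B hB => h'.elim fun C hC =>
    ⟨B + C, fun x => (abs_sub _ _).trans (add_le_add (hB x) (hC x))⟩

theorem Bdd.add {φ ψ : (Fin d → ℤ) → ℝ} (h : Bdd φ) (h' : Bdd ψ) : Bdd fun x => φ x + ψ x :=
  h.elim fun B hB => h'.elim fun C hC =>
    ⟨B + C, fun x => (abs_add_le _ _).trans (add_le_add (hB x) (hC x))⟩

theorem bdd_const (c : ℝ) : Bdd (d := d) fun _ => c := ⟨|c|, fun _ => le_rfl⟩

/-- The fixed ultrafilter. -/
noncomputable def ult : Ultrafilter ℕ := Ultrafilter.of atTop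

theorem ult_le : (ult : Filter ℕ) ≤ atTop := Ultrafilter.of_le atTop

/-- The averages along a progression. -/
noncomputable def avg (u : Fin d → ℤ) (φ : (Fin d → ℤ) → ℝ) (x : Fin d → ℤ) (N : ℕ) : ℝ :=
  (∑ n ∈ range N, φ (x + (n : ℤ) • u)) / N

/-- The mean along a progression. -/
noncomputable def mean (u : Fin d → ℤ) (φ : (Fin d → ℤ) → ℝ) (x : Fin d → ℤ) : ℝ :=
  limUnder (ult : Filter ℕ) (avg u φ x)

theorem abs_avg_le {u : Fin d → ℤ} {φ : (Fin d → ℤ) → ℝ} {B : ℝ} (hB : ∀ x, |φ x| ≤ B)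
    (x : Fin d → ℤ) (N : ℕ) : |avg u φ x N| ≤ B := by
  have hB0 : 0 ≤ B := (abs_nonneg _).trans (hB x)
  rw [avg, abs_div, Nat.abs_cast]
  refine div_le_of_le_mul₀ (Nat.cast_nonneg N) hB0 ((abs_sum_le_sum_abs _ _).trans ?_)
  refine (sum_le_sum fun n _ => hB _).trans ?_
  simp [mul_comm]

theorem tendsto_mean {φ : (Fin d → ℤ) → ℝ} (h : Bdd φ) (u x : Fin d → ℤ) :
    Tendsto (avg u φ x) (ult : Filter ℕ) (𝓝 (mean u φ x)) := by
  obtain ⟨B, hB⟩ := h
  obtain ⟨l, -, hl⟩ := isCompact_Icc.ultrafilter_le_nhds (ult.map (avg u φ x))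
    (le_principal_iff.2 (Ultrafilter.mem_map.2
      (univ_mem' fun N => abs_le.1 (abs_avg_le hB x N))))
  exact tendsto_nhds_limUnder ⟨l, hl⟩

theorem Bdd.mean {φ : (Fin d → ℤ) → ℝ} (h : Bdd φ) (u : Fin d → ℤ) : Bdd (mean u φ) := by
  obtain ⟨B, hB⟩ := h
  refine ⟨B, fun x => ?_⟩
  exact le_of_tendsto' ((tendsto_mean ⟨B, hB⟩ u x).abs) (abs_avg_le hB x)

theorem mean_sum {α : Type*} {s : Finset α} {φ : α → (Fin d → ℤ) → ℝ} (h : ∀ a ∈ s, Bdd (φ a))
    (u x : Fin d → ℤ) : mean u (fun y => ∑ a ∈ s, φ a y) x = ∑ a ∈ s, mean u (φ a) x := by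
  refine tendsto_nhds_unique (tendsto_mean (Bdd.sum h) u x) ?_
  refine (tendsto_finsetSum _ fun a ha => tendsto_mean (h a ha) u x).congr fun N => ?_
  simp only [avg, ← sum_div]
  rw [sum_comm]

theorem mean_add {φ ψ : (Fin d → ℤ) → ℝ} (h : Bdd φ) (h' : Bdd ψ) (u x : Fin d → ℤ) :
    mean u (fun y => φ y + ψ y) x = mean u φ x + mean u ψ x := by
  refine tendsto_nhds_unique (tendsto_mean (h.add h') u x) ?_
  refine ((tendsto_mean h u x).add (tendsto_mean h' u x)).congr fun N => ?_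
  simp only [avg, sum_add_distrib, add_div]

theorem mean_mono {φ ψ : (Fin d → ℤ) → ℝ} (h : Bdd φ) (h' : Bdd ψ) (hle : ∀ y, φ y ≤ ψ y)
    (u x : Fin d → ℤ) : mean u φ x ≤ mean u ψ x :=
  le_of_tendsto_of_tendsto' (tendsto_mean h u x) (tendsto_mean h' u x) fun N =>
    div_le_div_of_nonneg_right (sum_le_sum fun n _ => hle _) (Nat.cast_nonneg N)

/-- Periods are kept. -/
theorem per_le_mean {φ : (Fin d → ℤ) → ℝ} (h : Bdd φ) (u : Fin d → ℤ) :
    per φ ≤ per (mean u φ) := fun v hv x => by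
  refine tendsto_nhds_unique (tendsto_mean h u (x + v)) ((tendsto_mean h u x).congr fun N => ?_)
  simp only [avg]
  congr 1
  refine sum_congr rfl fun n _ => ?_
  rw [show x + v + (n : ℤ) • u = x + (n : ℤ) • u + v by abel, hv]

/-- The mean is periodic along the progression. -/
theorem self_mem_per_mean {φ : (Fin d → ℤ) → ℝ} (h : Bdd φ) (u : Fin d → ℤ) :
    u ∈ per (mean u φ) := fun x => by
  obtain ⟨B, hB⟩ := h
  refine sub_eq_zero.1 (tendsto_nhds_unique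
    ((tendsto_mean ⟨B, hB⟩ u (x + u)).sub (tendsto_mean ⟨B, hB⟩ u x)) ?_)
  refine Tendsto.mono_left ?_ ult_le
  refine squeeze_zero_norm (fun N => ?_) (tendsto_const_div_atTop_nhds_zero_nat (2 * B))
  rw [Real.norm_eq_abs]
  simp only [avg, ← sub_div, abs_div, Nat.abs_cast, ← sum_sub_distrib]
  refine div_le_div_of_nonneg_right ?_ (Nat.cast_nonneg N)
  have e := Finset.sum_range_sub (fun n : ℕ => φ (x + (n : ℤ) • u)) N
  rw [show ∑ n ∈ range N, (φ (x + u + (n : ℤ) • u) - φ (x + (n : ℤ) • u)) =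
    φ (x + (N : ℤ) • u) - φ (x + ((0 : ℕ) : ℤ) • u) by
      rw [← e]
      refine sum_congr rfl fun n _ => ?_
      rw [Nat.cast_succ, add_smul, one_smul, add_assoc, add_comm u]]
  refine (abs_sub _ _).trans ?_
  linarith [hB (x + (N : ℤ) • u), hB (x + ((0 : ℕ) : ℤ) • u)]

theorem mean_eq_self {φ : (Fin d → ℤ) → ℝ} (h : Bdd φ) {u : Fin d → ℤ} (hu : u ∈ per φ) :
    mean u φ = φ := funext fun x => by
  refine tendsto_nhds_unique (tendsto_mean h u x) (tendsto_const_nhds.congr' ?_)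
  filter_upwards [ult_le (eventually_gt_atTop 0)] with N hN
  have hn : ∀ n : ℕ, φ (x + (n : ℤ) • u) = φ x := fun n => zsmul_mem hu (n : ℤ) x
  simp only [avg, hn, sum_const, card_range, nsmul_eq_mul]
  field_simp

/-- Iterated means. -/
noncomputable def meanL : List (Fin d → ℤ) → ((Fin d → ℤ) → ℝ) → (Fin d → ℤ) → ℝ
  | [], φ => φ
  | u :: l, φ => mean u (meanL l φ)

theorem Bdd.meanL {φ : (Fin d → ℤ) → ℝ} (h : Bdd φ) :
    ∀ l : List (Fin d → ℤ), Bdd (meanL l φ)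
  | [] => h
  | u :: l => (Bdd.meanL h l).mean u

theorem meanL_sum {α : Type*} {s : Finset α} {φ : α → (Fin d → ℤ) → ℝ} (h : ∀ a ∈ s, Bdd (φ a)) :
    ∀ (l : List (Fin d → ℤ)), meanL l (fun y => ∑ a ∈ s, φ a y) = fun x => ∑ a ∈ s, meanL l (φ a) x
  | [] => rfl
  | u :: l => by
    funext x
    show mean u (meanL l _) x = _
    rw [meanL_sum h l, mean_sum (fun a ha => (h a ha).meanL l)]
    rfl

theorem meanL_add {φ ψ : (Fin d → ℤ) → ℝ} (h : Bdd φ) (h' : Bdd ψ) :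
    ∀ l : List (Fin d → ℤ), meanL l (fun y => φ y + ψ y) = fun x => meanL l φ x + meanL l ψ x
  | [] => rfl
  | u :: l => by
    funext x
    show mean u (meanL l _) x = _
    rw [meanL_add h h' l, mean_add (h.meanL l) (h'.meanL l)]
    rfl

theorem meanL_mono {φ ψ : (Fin d → ℤ) → ℝ} (h : Bdd φ) (h' : Bdd ψ) (hle : ∀ y, φ y ≤ ψ y) :
    ∀ (l : List (Fin d → ℤ)) x, meanL l φ x ≤ meanL l ψ x
  | [] => hle
  | u :: l => mean_mono (h.meanL l) (h'.meanL l) (meanL_mono h h' hle l) u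

theorem per_le_meanL {φ : (Fin d → ℤ) → ℝ} (h : Bdd φ) :
    ∀ l : List (Fin d → ℤ), per φ ≤ per (meanL l φ)
  | [] => le_rfl
  | u :: l => (per_le_meanL h l).trans (per_le_mean (h.meanL l) u)

theorem mem_per_meanL {φ : (Fin d → ℤ) → ℝ} (h : Bdd φ) {w : Fin d → ℤ} :
    ∀ {l : List (Fin d → ℤ)}, w ∈ l → w ∈ per (meanL l φ)
  | u :: l, hw => by
    rcases List.mem_cons.1 hw with rfl | hw
    · exact self_mem_per_mean (h.meanL l) w
    · exact per_le_mean (h.meanL l) u (mem_per_meanL h hw)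

theorem meanL_eq_self {φ : (Fin d → ℤ) → ℝ} (h : Bdd φ) :
    ∀ {l : List (Fin d → ℤ)}, (∀ w ∈ l, w ∈ per φ) → meanL l φ = φ
  | [], _ => rfl
  | u :: l, hl => by
    show mean u (meanL l φ) = φ
    rw [meanL_eq_self h fun w hw => hl w (List.mem_cons_of_mem _ hw),
      mean_eq_self h (hl u List.mem_cons_self)]

theorem meanL_const (c : ℝ) (l : List (Fin d → ℤ)) : meanL l (fun _ => c) = fun _ => c :=
  meanL_eq_self (bdd_const c) fun _ _ _ => rfl

end Vale.Agent.P043.Space
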