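import Mathlib
import Vale.Agent.P043.Space.Decomp

/-!
Helper for P043: dual vectors of independent integer normals.
-/

namespace Vale.Agent.P043.Space

open Finset

variable {d m : ℕ}

/-- Dual vectors of independent normals, up to a common multiple. -/
theorem exists_dual {V : Fin m → Fin d → ℤ}
    (hV : LinearIndependent ℚ fun i (k : Fin d) => (V i k : ℚ)) :
    ∃ (c : ℤ) (s : Fin m → Fin d → ℤ), 0 < c ∧ (∀ i, dot (V i) (s i) = c) ∧
      ∀ i j, j ≠ i → dot (V j) (s i) = 0 := by
  classical
  obtain ⟨g, hg⟩ := LinearMap.exists_leftInverse_of_injective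
    (Fintype.linearCombination ℚ fun i (k : Fin d) => (V i k : ℚ))
    (LinearMap.ker_eq_bot.2 hV.fintypeLinearCombination_injective)
  set D : ℕ := ∏ p : Fin d × Fin m, (g (Pi.single p.1 1) p.2).den with hD
  have hD0 : 0 < D := Finset.prod_pos fun p _ => Rat.den_pos _
  have hex : ∀ i k, ∃ z : ℤ, (z : ℚ) = D * g (Pi.single k 1) i := fun i k => by
    obtain ⟨e, he⟩ : (g (Pi.single k 1) i).den ∣ D :=
      Finset.dvd_prod_of_mem (fun p : Fin d × Fin m => (g (Pi.single p.1 1) p.2).den)
        (mem_univ (k, i))
    refine ⟨e * (g (Pi.single k 1) i).num, ?_⟩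
    rw [he]
    push_cast
    rw [← Rat.mul_den_eq_num (g (Pi.single k 1) i)]
    ring
  choose s hs using hex
  have key : ∀ i j, ((dot (V j) (s i) : ℤ) : ℚ) = D * (Pi.single j (1 : ℚ) : Fin m → ℚ) i := by
    intro i j
    have h1 : g (fun k => (V j k : ℚ)) = Pi.single j 1 := by
      have := LinearMap.congr_fun hg (Pi.single j 1)
      simpa [Fintype.linearCombination_apply_single] using this
    rw [← h1, pi_eq_sum_univ' (fun k => (V j k : ℚ)), map_sum, Finset.sum_apply, mul_sum,
      dot_apply]
    push_cast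
    refine sum_congr rfl fun k _ => ?_
    rw [hs, map_smul, Pi.smul_apply, smul_eq_mul]
    ring
  refine ⟨D, s, by exact_mod_cast hD0, fun i => ?_, fun i j hji => ?_⟩
  · have := key i i
    rw [Pi.single_eq_same, mul_one] at this
    exact_mod_cast this
  · have := key i j
    rw [Pi.single_eq_of_ne hji.symm, mul_zero] at this
    exact_mod_cast this

end Vale.Agent.P043.Space
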