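import Mathlib
import Vale.Agent.P043.Rows.PlaneSeq
import Vale.Agent.P043.Space.Periodic

/-!
Helper for P043: products of difference operators on `ℤ^d`.
-/

namespace Vale.Agent.P043.Space

open Finset
open Rows (IsI)

variable {d m : ℕ}

/-- The product of the difference operators of the list. -/
def Dl : List (Fin d → ℤ) → ((Fin d → ℤ) → ℝ) → (Fin d → ℤ) → ℝ
  | [], f => f
  | h :: l, f => fun x => Dl l f (x + h) - Dl l f x

theorem Dl_add (l : List (Fin d → ℤ)) (f g : (Fin d → ℤ) → ℝ) :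
    ∀ x, Dl l (fun y => f y + g y) x = Dl l f x + Dl l g x := by
  induction l with
  | nil => intro x; rfl
  | cons h l ih => intro x; simp only [Dl, ih]; ring

theorem Dl_sum {α : Type*} (s : Finset α) (l : List (Fin d → ℤ)) (f : α → (Fin d → ℤ) → ℝ) :
    ∀ x, Dl l (fun y => ∑ i ∈ s, f i y) x = ∑ i ∈ s, Dl l (f i) x := by
  induction l with
  | nil => intro x; rfl
  | cons h l ih => intro x; simp only [Dl, ih, sum_sub_distrib]

theorem per_le_Dl (l : List (Fin d → ℤ)) (f : (Fin d → ℤ) → ℝ) : per f ≤ per (Dl l f) := by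
  induction l with
  | nil => exact le_rfl
  | cons h l ih =>
    intro w hw x
    simp only [Dl]
    rw [add_right_comm, ih hw, ih hw]

theorem Dl_eq_zero {l : List (Fin d → ℤ)} {h : Fin d → ℤ} {f : (Fin d → ℤ) → ℝ} (hh : h ∈ l)
    (hf : h ∈ per f) : ∀ x, Dl l f x = 0 := by
  induction l with
  | nil => simp at hh
  | cons k l ih =>
    intro x
    simp only [Dl]
    rcases List.mem_cons.1 hh with rfl | hh
    · rw [per_le_Dl l f hf x, sub_self]
    · rw [ih hh, ih hh, sub_self]

/-- Integer values give integer values. -/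
theorem Dl_int (l : List (Fin d → ℤ)) {f : (Fin d → ℤ) → ℝ} (hf : ∀ x, IsI (f x)) :
    ∀ x, IsI (Dl l f x) := by
  induction l with
  | nil => exact hf
  | cons h l ih => intro x; exact (ih (x + h)).sub (ih x)

/-- Congruent steps act as the forward difference. -/
theorem Dl_line {l : List (Fin d → ℤ)} {τ : Fin d → ℤ} {f : (Fin d → ℤ) → ℝ}
    (hl : ∀ h ∈ l, h - τ ∈ per f) (x : Fin d → ℤ) :
    ∀ n : ℤ, Dl l f (x + n • τ) = (fwdDiff 1)^[l.length] (fun k : ℤ => f (x + k • τ)) n := by
  induction l with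
  | nil => intro n; rfl
  | cons h l ih =>
    have ih' := ih fun k hk => hl k (List.mem_cons_of_mem _ hk)
    intro n
    simp only [Dl, List.length_cons, Function.iterate_succ_apply']
    rw [show x + n • τ + h = x + (n + 1) • τ + (h - τ) by rw [add_smul, one_smul]; abel,
      per_le_Dl l f (hl h List.mem_cons_self), ih', ih']
    rfl

/-- Steps that act on the `i`-th summand as multiples of one vector and kill all other summands. -/
theorem exists_steps {V : Fin m → Fin d → ℤ} (i : Fin m) (hi : V i ≠ 0)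
    (hpair : ∀ l, l ≠ i → ∃ z, dot (V l) z = 0 ∧ dot (V i) z ≠ 0) :
    ∃ τ : Fin d → ℤ, 0 < dot (V i) τ ∧ ∀ L : ℤ, ∃ steps : List (Fin d → ℤ), L • τ ∈ steps ∧
      (∀ h ∈ steps, ∃ w, dot (V i) w = 0 ∧ h - L • τ = L • w) ∧
      ∀ l, l ≠ i → ∃ h ∈ steps, ∃ w, dot (V l) w = 0 ∧ h = L • w := by
  classical
  choose z hz hz' using hpair
  set δ := dot (V i) (V i)
  let e : Fin m → ℤ := fun l => if h : l ≠ i then dot (V i) (z l h) else 1
  have he : ∀ l, e l ≠ 0 := fun l => by
    simp only [e]; split_ifs with h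
    · exact hz' l h
    · exact one_ne_zero
  set P := ∏ l, |e l|
  have hP : 0 < P := prod_pos fun l _ => abs_pos.2 (he l)
  have hδ : 0 < δ := dot_self_pos hi
  let st : Fin m → Fin d → ℤ := fun l =>
    if h : l ≠ i then (δ * (P / e l)) • z l h else P • V i
  refine ⟨P • V i, by rw [dot_smul]; exact mul_pos hP hδ, fun L => ⟨List.ofFn fun l => L • st l,
    List.mem_ofFn.2 ⟨i, by simp [st]⟩, ?_, fun l hl => ⟨_, List.mem_ofFn.2 ⟨l, rfl⟩, st l, ?_, rfl⟩⟩⟩
  · intro h hh
    obtain ⟨l, rfl⟩ := List.mem_ofFn.1 hh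
    refine ⟨st l - P • V i, ?_, by rw [smul_sub]⟩
    rw [map_sub, sub_eq_zero, dot_smul]
    simp only [st]
    split_ifs with h
    · rw [dot_smul]
      have : e l ∣ P := (self_dvd_abs _).trans (dvd_prod_of_mem _ (mem_univ l))
      have hel : e l = dot (V i) (z l h) := dif_pos h
      rw [← hel, mul_assoc, Int.ediv_mul_cancel this, mul_comm]
    · rw [dot_smul]
  · simp only [st, dif_pos hl, dot_smul, hz l hl, mul_zero]

/-- Only the `i`-th summand survives. -/
theorem Dl_others {α : Type*} [Fintype α] [DecidableEq α] {f : α → (Fin d → ℤ) → ℝ} (i : α)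
    {steps : List (Fin d → ℤ)} (hkill : ∀ l, l ≠ i → ∃ h ∈ steps, h ∈ per (f l))
    (x : Fin d → ℤ) : Dl steps (fun y => ∑ l, f l y) x = Dl steps (f i) x := by
  rw [Dl_sum, sum_eq_single i]
  · intro l _ hl
    obtain ⟨h, hh, hp⟩ := hkill l hl
    exact Dl_eq_zero hh hp x
  · simp

end Vale.Agent.P043.Space
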