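import Mathlib
import Vale.Agent.P043.Space.Periodic
import Vale.Agent.P043.Space.Dual

/-!
Helper for P043: finite tiles of `ℤ^d` whose exceptional directions are independent have periodic
tilings.
-/

namespace Vale.Agent.P043.Space

open Finset

variable {d m : ℕ}

/-- Two varying summands cannot give a function with values zero and one. -/
theorem constant_but_one {H : (Fin m → ℤ) → ℝ} (hH : ∀ t, H t = 0 ∨ H t = 1)
    {G : Fin m → ℤ → ℝ} {P : ℝ} (h : ∀ t, H t = P + ∑ i, G i (t i)) {i j : Fin m} (hij : i ≠ j)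
    {a b a' b' : ℤ} (hi : G i a < G i b) (hj : G j a' < G j b') : False := by
  classical
  set t₁ : Fin m → ℤ := Function.update (Function.update 0 i a) j a' with ht₁
  set t₂ : Fin m → ℤ := Function.update t₁ i b with ht₂
  set t₃ : Fin m → ℤ := Function.update t₂ j b' with ht₃
  have hdiff : ∀ (t : Fin m → ℤ) k c, H (Function.update t k c) - H t = G k c - G k (t k) := by
    intro t k c
    rw [h, h, add_sub_add_left_eq_sub, ← sum_sub_distrib, sum_eq_single k]
    · simp
    · intro l _ hl; simp [hl]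
    · simp
  have e1 := hdiff t₁ i b
  have e2 := hdiff t₂ j b'
  rw [show t₁ i = a by simp [ht₁, hij]] at e1
  rw [show t₂ j = a' by simp [ht₂, ht₁, hij.symm]] at e2
  rcases hH t₁ with q1 | q1 <;> rcases hH t₂ with q2 | q2 <;> rcases hH t₃ with q3 | q3 <;>
    linarith

/-- The main theorem of this folder. -/
theorem periodic_of_allLone {F : Finset (Fin d → ℤ)} {V : Fin m → Fin d → ℤ}
    (hV : LinearIndependent ℚ fun i (k : Fin d) => (V i k : ℚ)) (hF : AllLone F V)
    {A : Set (Fin d → ℤ)} (hA : Tiles A F) :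
    (m = 0 → ∃ P : ℤ, 0 < P ∧ ∀ y w, (y + P • w ∈ A ↔ y ∈ A)) ∧
      ∃ (A' : Set (Fin d → ℤ)) (P : ℤ), 0 < P ∧ Tiles A' F ∧
        ∀ y w, (y + P • w ∈ A' ↔ y ∈ A') := by
  classical
  have hV0 : ∀ i, V i ≠ 0 := fun i e => hV.ne_zero i (by funext k; simp [e])
  obtain ⟨L, P, u, hL, hP, hu, hsum, -⟩ := splits_of_eqn hV0 hF d (ind A) (eqn_ind hA) (by omega)
  have hmem : ∀ {y z : Fin d → ℤ}, ind A y = ind A z → (y ∈ A ↔ z ∈ A) := fun {y z} e => by
    by_cases hy : y ∈ A <;> by_cases hz : z ∈ A <;> simp [ind, hy, hz] at e ⊢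
  have hzero : m = 0 → ∀ y w, (y + L • w ∈ A ↔ y ∈ A) := by
    rintro rfl y w
    exact hmem (by rw [hsum, hsum, hP w y]; simp)
  refine ⟨fun hm => ⟨L, hL, hzero hm⟩, ?_⟩
  rcases Nat.eq_zero_or_pos m with hm | hm
  · exact ⟨A, L, hL, hA, hzero hm⟩
  obtain ⟨c, s, hc, hsi, hsj⟩ := exists_dual hV
  set K : ℤ := L * c with hK
  have hK0 : 0 < K := mul_pos hL hc
  have hu' : ∀ x i (t : ℤ) w, dot (V i) w = c * t → u i (x + L • w) = u i (x + L • (t • s i)) := by
    intro x i t w hw
    have h1 := hu i (w - t • s i) (by rw [map_sub, dot_smul, hsi, hw]; ring) (x + L • (t • s i))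
    rwa [show x + L • (t • s i) + L • (w - t • s i) = x + L • w by rw [smul_sub]; abel] at h1
  have hclass : ∀ x, ∃ i, ∀ w v, dot (V i) v = 0 →
      (x + K • (w + v) ∈ A ↔ x + K • w ∈ A) := by
    intro x
    let G : Fin m → ℤ → ℝ := fun i t => u i (x + L • (t • s i))
    have hH : ∀ t : Fin m → ℤ, ind A (x + L • ∑ i, t i • s i) = P x + ∑ i, G i (t i) := fun t => by
      rw [hsum, hP _ x]
      refine congrArg (P x + ·) (sum_congr rfl fun i _ => hu' x i (t i) _ ?_)
      rw [map_sum, sum_eq_single i (fun j _ hji => by rw [dot_smul, hsj j i hji.symm, mul_zero])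
        (by simp), dot_smul, hsi, mul_comm]
    obtain ⟨i₀, hi₀⟩ : ∃ i₀, ∀ j, j ≠ i₀ → ∀ a b, G j a = G j b := by
      by_contra hno
      push Not at hno
      obtain ⟨j, -, a, b, hab⟩ := hno ⟨0, hm⟩
      obtain ⟨j', hj', a', b', hab'⟩ := hno j
      have hbin : ∀ t : Fin m → ℤ,
          ind A (x + L • ∑ i, t i • s i) = 0 ∨ ind A (x + L • ∑ i, t i • s i) = 1 := fun t => by
        by_cases ht : x + L • ∑ i, t i • s i ∈ A
        · exact Or.inr (ind_of_mem ht)
        · exact Or.inl (ind_of_notMem ht)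
      rcases lt_or_gt_of_ne hab with h1 | h1 <;> rcases lt_or_gt_of_ne hab' with h2 | h2 <;>
        exact constant_but_one hbin hH hj'.symm h1 h2
    refine ⟨i₀, fun w v hv => hmem ?_⟩
    have hG : ∀ i w, u i (x + K • w) = G i (dot (V i) w) := fun i w => by
      rw [hK, mul_smul]
      exact hu' x i _ _ (dot_smul _ _ _)
    rw [hsum, hsum, hK, mul_smul, mul_smul, hP _ x, hP _ x, ← mul_smul, ← mul_smul, ← hK]
    simp only [hG]
    refine congrArg (P x + ·) (sum_congr rfl fun i _ => ?_)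
    by_cases hi : i = i₀
    · subst hi; rw [map_add, hv, add_zero]
    · exact hi₀ i hi _ _
  choose idx hidx using hclass
  let rep : (Fin d → ℤ) → Fin d → ℤ := fun y k => y k % K
  have hrep : ∀ y w, rep (y + K • w) = rep y := fun y w => by funext k; simp [rep]
  let S : Fin m → Set (Fin d → ℤ) := fun i => {y | y ∈ A ∧ idx (rep y) = i}
  have hS : ∀ i y w, dot (V i) w = 0 → (y + K • w ∈ S i ↔ y ∈ S i) := by
    intro i y w hw
    simp only [S, Set.mem_ofPred_eq, hrep]
    refine and_congr_left fun hi => ?_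
    have hy : y = rep y + K • fun k => y k / K := by
      funext k; simp [rep, Int.emod_add_mul_ediv]
    have := hidx (rep y) (fun k => y k / K) w (by rwa [hi])
    rwa [smul_add, ← add_assoc, ← hy] at this
  have hsplit : ∀ y, ∑ i, ind (S i) y = ind A y := fun y => by
    rw [sum_eq_single (idx (rep y))]
    · exact ind_congr ⟨fun hy => hy.1, fun hy => ⟨hy, rfl⟩⟩
    · exact fun i _ hi => ind_of_notMem fun hy => hi hy.2.symm
    · simp
  have htile : ∀ x, ∑ i, cnt (S i) F x = 1 := fun x => by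
    have := (eqn_ind hA).2 0 x
    simp only [cnt]
    rw [sum_comm, sum_congr rfl fun f _ => hsplit (x - f)]
    simpa using this
  have hper : ∀ i w, (K * c) • w ∈ per (cnt (S i) F) := by
    intro i w x
    have h1 : cnt (S i) F (x + (K * c) • w) = cnt (S i) F (x + K • (dot (V i) w • s i)) := by
      have h2 := cnt_inv (F := F) (fun y => hS i y (c • w - dot (V i) w • s i)
        (by rw [map_sub, dot_smul, dot_smul, hsi]; ring)) (x + K • (dot (V i) w • s i))
      rwa [show x + K • (dot (V i) w • s i) + K • (c • w - dot (V i) w • s i) = x + (K * c) • w by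
        rw [smul_sub, smul_smul K c]; abel] at h2
    have h3 := (htile (x + K • (dot (V i) w • s i))).trans (htile x).symm
    rw [← add_sum_erase _ _ (mem_univ i), ← add_sum_erase _ _ (mem_univ i),
      sum_congr rfl fun j hj => cnt_inv (F := F) (fun y => hS j y (dot (V i) w • s i)
        (by rw [dot_smul, hsj i j (ne_of_mem_erase hj), mul_zero])) x] at h3
    rw [h1]
    linarith
  choose S' e he hev hcnt using fun i =>
    exists_periodic_piece (hV0 i) hK0 (S := S i) (hS i) F (mul_pos hK0 hc) (hper i)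
  refine ⟨{y | ∃ i, y ∈ S' i}, ∏ i, e i, Finset.prod_pos fun i _ => he i, fun x => ?_,
    fun y w => ?_⟩
  · have hx : ∑ p ∈ (univ : Finset (Fin m)) ×ˢ F, ind (S' p.1) (x - p.2) = 1 := by
      rw [sum_product, ← htile x]
      exact sum_congr rfl fun i _ => hcnt i x
    obtain ⟨p, hp, hpS⟩ : ∃ p ∈ (univ : Finset (Fin m)) ×ˢ F, x - p.2 ∈ S' p.1 := by
      by_contra hno
      rw [sum_eq_zero fun p hp => ind_of_notMem fun hm => hno ⟨p, hp, hm⟩] at hx
      exact zero_ne_one hx
    refine ⟨p.2, ⟨(mem_product.1 hp).2, p.1, hpS⟩, ?_⟩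
    rintro f ⟨hf, i, hi⟩
    by_contra hne
    have hsub : ({(i, f), p} : Finset (Fin m × (Fin d → ℤ))) ⊆ univ ×ˢ F := by
      simp [insert_subset_iff, hf, (mem_product.1 hp).2]
    have := sum_le_sum_of_subset_of_nonneg (f := fun p => ind (S' p.1) (x - p.2)) hsub
      fun p _ _ => (ind_mem_Icc _ _).1
    rw [sum_pair (fun h => hne (congrArg Prod.snd h)), hx, ind_of_mem hi, ind_of_mem hpS] at this
    norm_num at this
  · refine exists_congr fun i => ?_
    obtain ⟨k, hk⟩ : e i ∣ ∏ i, e i := dvd_prod_of_mem _ (mem_univ i)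
    rw [hk, mul_smul]
    exact hev i _ _

end Vale.Agent.P043.Space
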