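import Mathlib
import Vale.Agent.P043.Space.Mean
import Vale.Agent.P043.Space.Dual

/-!
Helper for P043: with a point alone in its fibre of two forms, the ranges of the two one-variable
pieces of a tiling add up to at most one.
-/

namespace Vale.Agent.P043.Space

open Finset

variable {d m : ℕ}

/-- Two vectors seen as rational ones are independent. -/
def Indep (a b : Fin d → ℤ) : Prop :=
  LinearIndependent ℚ ![fun k => (a k : ℚ), fun k => (b k : ℚ)]

theorem Indep.symm {a b : Fin d → ℤ} (h : Indep a b) : Indep b a := by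
  unfold Indep at h ⊢
  exact LinearIndependent.pair_symm_iff.1 h

theorem Indep.dual {a b : Fin d → ℤ} (h : Indep a b) :
    ∃ (c : ℤ) (s t : Fin d → ℤ), 0 < c ∧ dot a s = c ∧ dot b s = 0 ∧ dot a t = 0 ∧ dot b t = c := by
  obtain ⟨c, s, hc, hd, ho⟩ := exists_dual (V := ![a, b]) (by
    have e : (fun (i : Fin 2) (k : Fin d) => ((![a, b] i k : ℤ) : ℚ)) =
        ![fun k => (a k : ℚ), fun k => (b k : ℚ)] := by
      funext i
      fin_cases i <;> rfl
    rw [e]
    exact h)
  refine ⟨c, s 0, s 1, hc, ?_, ?_, ?_, ?_⟩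
  · simpa using hd 0
  · simpa using ho 0 1 (by decide)
  · simpa using ho 1 0 (by decide)
  · simpa using hd 1

/-- A vector orthogonal to `a` and not to `b`. -/
theorem Indep.exists_perp {a b : Fin d → ℤ} (h : Indep a b) :
    ∃ z, dot a z = 0 ∧ dot b z ≠ 0 := by
  obtain ⟨c, -, t, hc, -, -, h1, h2⟩ := h.dual
  exact ⟨t, h1, by rw [h2]; exact hc.ne'⟩

/-- Periods along the hyperplane of `a` and one more give a lattice of periods. -/
theorem mem_per_of_hyperplane {a : Fin d → ℤ} {φ : (Fin d → ℤ) → ℝ} {N L : ℤ}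
    (hN : ∀ y, dot a y = 0 → N • y ∈ per φ) {z : Fin d → ℤ} (hz : L • z ∈ per φ) (y : Fin d → ℤ) :
    (N * L * dot a z) • y ∈ per φ := by
  have key : ∀ (A B : ℤ), (N * L * A) • y = (L • (N • (A • y - B • z))) + (N * B) • L • z := by
    intro A B
    simp only [smul_sub, smul_smul]
    rw [show N * B * L = L * (N * B) by ring, show N * L * A = L * (N * A) by ring,
      sub_add_cancel]
  rw [key (dot a z) (dot a y)]
  exact add_mem (zsmul_mem (hN _ (by rw [map_sub, dot_smul, dot_smul]; ring)) L) (zsmul_mem hz _)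

/-- One piece against the averages at the chosen point. -/
theorem side {φ : (Fin d → ℤ) → ℝ} (hφB : Bdd φ) {V : Fin m → Fin d → ℤ}
    (hpw : ∀ i j, i ≠ j → Indep (V i) (V j))
    {L : ℤ} {P : (Fin d → ℤ) → ℝ} {u : Fin m → (Fin d → ℤ) → ℝ} (hL : 0 < L)
    (hP : ∀ w, L • w ∈ per P) (hu : ∀ i w, dot (V i) w = 0 → L • w ∈ per (u i))
    (hsum : ∀ x, φ x = P x + ∑ i, u i x) (hB : ∀ i, Bdd (u i))
    {E : Finset (Fin d → ℤ)} {h : Fin d → ℤ} {q : ℤ} (hq : 0 < q)
    {ψ : (Fin d → ℤ) → (Fin d → ℤ) → ℝ} (hψB : ∀ g, Bdd (ψ g))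
    (hψg : ∀ g, q • (g - h) ∈ per (ψ g)) (hψ : ∀ x, φ x = 1 - ∑ g ∈ E, ψ g x)
    (a : Fin m) (b : Fin d → ℤ) {gen : Fin d → Fin d → ℤ} {s : Fin d → ℤ} {c : ℤ} (hc : 0 < c)
    (hgen : ∀ k, dot (V a) (gen k) = 0) (hs : dot (V a) s = 0)
    (hexp : ∀ y, dot (V a) y = 0 → c • y = ∑ k, y k • gen k + dot b y • s)
    {N : ℤ} (hN : 0 < N) (hLN : L ∣ N)
    (hdv : ∀ g ∈ E, dot (V a) (g - h) = 0 → q * dot b (g - h) ∣ N) :
    ∃ M : ℤ, 0 < M ∧
      (∀ y, dot (V a) y = 0 → M • y ∈ per fun x => ∑ g ∈ E.filter (fun g => dot (V a) (g - h) = 0),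
        meanL (List.ofFn fun k => N • gen k) (ψ g) x) ∧
      ∀ y, M • y ∈ per fun x => u a x + ∑ g ∈ E.filter (fun g => dot (V a) (g - h) = 0),
        meanL (List.ofFn fun k => N • gen k) (ψ g) x := by
  classical
  set ws : List (Fin d → ℤ) := List.ofFn fun k => N • gen k with hws
  set la : List (Fin d → ℤ) := ((N * N) • s) :: ws with hla
  set Φ : (Fin d → ℤ) → ℝ := fun x => ∑ g ∈ E.filter (fun g => dot (V a) (g - h) = 0),
    meanL ws (ψ g) x with hΦ
  set M₁ : ℤ := N * N * c with hM₁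
  have hM₁0 : 0 < M₁ := mul_pos (mul_pos hN hN) hc
  have hgenmem : ∀ (φ : (Fin d → ℤ) → ℝ), Bdd φ → ∀ k, N • gen k ∈ per (meanL ws φ) :=
    fun φ hφ k => mem_per_meanL hφ (List.mem_ofFn.2 ⟨k, rfl⟩)
  -- invariance of the selected averages along the hyperplane
  have hkeep : ∀ g ∈ E, dot (V a) (g - h) = 0 → (N * N) • s ∈ per (meanL ws (ψ g)) := by
    intro g hg h0
    obtain ⟨k, hk⟩ := hdv g hg h0
    have h1 : dot b (g - h) • s = c • (g - h) - ∑ l, (g - h) l • gen l := by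
      rw [hexp _ h0, add_sub_cancel_left]
    have e : (N * N) • s =
        (N * k * c) • q • (g - h) - ∑ l, (k * q * (g - h) l) • N • gen l := by
      calc (N * N) • s = (N * k * q) • dot b (g - h) • s := by
            rw [smul_smul]; congr 1
            linear_combination N * hk
        _ = _ := by
            rw [h1, smul_sub, smul_sum, smul_smul, smul_smul]
            congr 1
            · ring_nf
            · exact sum_congr rfl fun l _ => by rw [smul_smul, smul_smul]; ring_nf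
    rw [e]
    exact sub_mem (zsmul_mem (per_le_meanL (hψB g) ws (hψg g)) _)
      (sum_mem fun l _ => zsmul_mem (hgenmem _ (hψB g) l) _)
  have hplane : ∀ (φ : (Fin d → ℤ) → ℝ), (∀ k, N • gen k ∈ per φ) → (N * N) • s ∈ per φ →
      ∀ y, dot (V a) y = 0 → M₁ • y ∈ per φ := by
    intro φ h1 h2 y hy
    have e : M₁ • y = ∑ k, (N * y k) • N • gen k + dot b y • (N * N) • s := by
      rw [hM₁, mul_smul, hexp y hy, smul_add, smul_sum]
      congr 1
      · exact sum_congr rfl fun k _ => by rw [smul_smul, smul_smul]; ring_nf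
      · rw [smul_smul, smul_smul]; ring_nf
    rw [e]
    exact add_mem (sum_mem fun k _ => zsmul_mem (h1 k) _) (zsmul_mem h2 _)
  have hlaplane : ∀ (φ : (Fin d → ℤ) → ℝ), Bdd φ → ∀ y, dot (V a) y = 0 →
      M₁ • y ∈ per (meanL la φ) := fun φ hφ => hplane _
    (fun k => mem_per_meanL hφ (List.mem_cons_of_mem _ (List.mem_ofFn.2 ⟨k, rfl⟩)))
    (mem_per_meanL hφ List.mem_cons_self)
  -- every other summand becomes periodic
  choose z hz hz' using fun l : {l : Fin m // l ≠ a} => (hpw l.1 a l.2).exists_perp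
  set K₁ : ℤ := ∏ l : {l : Fin m // l ≠ a}, |dot (V a) (z l)| with hK₁
  set K₂ : ℤ := ∏ g ∈ E.filter (fun g => ¬dot (V a) (g - h) = 0), |dot (V a) (g - h)| with hK₂
  have hK₁0 : 0 < K₁ := prod_pos fun l _ => abs_pos.2 (hz' l)
  have hK₂0 : 0 < K₂ := prod_pos fun g hg => abs_pos.2 (mem_filter.1 hg).2
  set M : ℤ := M₁ * (L * q * (K₁ * K₂)) with hM
  have hM0 : 0 < M := mul_pos hM₁0 (mul_pos (mul_pos hL hq) (mul_pos hK₁0 hK₂0))
  have hmul : ∀ (k : ℤ) {φ : (Fin d → ℤ) → ℝ} {y : Fin d → ℤ}, k ∣ M →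
      (∀ y, k • y ∈ per φ) → M • y ∈ per φ := fun k φ y ⟨r, hr⟩ hk => by
    rw [hr, mul_smul]; exact hk _
  refine ⟨M, hM0, fun y hy => ?_, fun y => ?_⟩
  · rw [hM, mul_smul]
    intro x
    refine sum_congr rfl fun g hg => ?_
    obtain ⟨hgE, h0⟩ := mem_filter.1 hg
    exact hplane _ (hgenmem _ (hψB g)) (hkeep g hgE h0) _
      (by rw [dot_smul, hy, mul_zero]) x
  -- two expressions for the average of the indicator
  have e1 : meanL la φ = fun x => P x + (u a x + ∑ l : {l : Fin m // l ≠ a}, meanL la (u l.1) x) := by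
    have hind : φ = fun x => P x + ∑ i, u i x := funext hsum
    have hPB : Bdd P := by
      have := hφB.sub (Bdd.sum (s := univ) fun i _ => hB i)
      convert this using 2
      rw [hsum]; ring
    rw [hind, meanL_add hPB (Bdd.sum fun i _ => hB i), meanL_sum fun i _ => hB i]
    have hmem : ∀ v ∈ la, ∃ y, dot (V a) y = 0 ∧ v = L • y := by
      intro v hv
      obtain ⟨r, hr⟩ := hLN
      rcases List.mem_cons.1 hv with rfl | hv
      · exact ⟨(r * N) • s, by rw [dot_smul, hs, mul_zero], by rw [smul_smul, hr]; ring_nf⟩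
      · obtain ⟨k, rfl⟩ := List.mem_ofFn.1 hv
        exact ⟨r • gen k, by rw [dot_smul, hgen, mul_zero], by rw [smul_smul, hr]⟩
    rw [meanL_eq_self hPB fun v hv => by obtain ⟨y, -, rfl⟩ := hmem v hv; exact hP y]
    funext x
    congr 1
    simp only []
    rw [← add_sum_erase univ _ (mem_univ a), meanL_eq_self (hB a) fun v hv => by
      obtain ⟨y, hy, rfl⟩ := hmem v hv; exact hu a y hy]
    congr 1
    exact (sum_subtype (univ.erase a) (fun l => by simp) fun l => meanL la (u l) x)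
  have e2 : meanL la φ = fun x => 1 - (Φ x +
      ∑ g ∈ E.filter (fun g => ¬dot (V a) (g - h) = 0), meanL la (ψ g) x) := by
    have hneg : φ = fun x => (1 : ℝ) + ∑ g ∈ E, -ψ g x := by
      funext x; rw [hψ, sum_neg_distrib]; ring
    have hnB : ∀ g, Bdd fun x => -ψ g x := fun g =>
      (hψB g).elim fun B hb => ⟨B, fun x => by rw [abs_neg]; exact hb x⟩
    have hneg' : ∀ g, meanL la (fun x => -ψ g x) = fun x => -meanL la (ψ g) x := fun g => by
      have := meanL_add (hnB g) (hψB g) la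
      simp only [neg_add_cancel, meanL_const] at this
      funext x
      linarith [congrFun this x]
    rw [hneg, meanL_add (bdd_const 1) (Bdd.sum fun g _ => hnB g), meanL_sum fun g _ => hnB g,
      meanL_const]
    funext x
    simp only [hneg', sum_neg_distrib, ← sub_eq_add_neg]
    rw [← sum_filter_add_sum_filter_not E (fun g => dot (V a) (g - h) = 0)]
    congr 2
    refine sum_congr rfl fun g hg => ?_
    obtain ⟨hgE, h0⟩ := mem_filter.1 hg
    exact congrFun (mean_eq_self ((hψB g).meanL ws) (hkeep g hgE h0)) x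
  intro x
  have key : ∀ x, u a x + Φ x = 1 - P x - (∑ l : {l : Fin m // l ≠ a}, meanL la (u l.1) x) -
      ∑ g ∈ E.filter (fun g => ¬dot (V a) (g - h) = 0), meanL la (ψ g) x := fun x => by
    have h1 := congrFun e1 x
    rw [congrFun e2 x] at h1
    linarith
  show u a (x + M • y) + Φ (x + M • y) = u a x + Φ x
  rw [key, key, hmul L ⟨M₁ * (q * (K₁ * K₂)), by rw [hM]; ring⟩ hP x]
  congr 1
  · congr 1
    refine sum_congr rfl fun l _ => ?_
    obtain ⟨r, hr⟩ : |dot (V a) (z l)| ∣ K₁ := dvd_prod_of_mem _ (mem_univ l)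
    obtain ⟨r', hr'⟩ := self_dvd_abs (dot (V a) (z l))
    exact hmul _ ⟨q * K₂ * r * r', by rw [hM, hr, hr']; ring⟩ (mem_per_of_hyperplane
      (hlaplane _ (hB l.1)) (per_le_meanL (hB l.1) la (hu l.1 (z l) (hz l)))) x
  · refine sum_congr rfl fun g hg => ?_
    obtain ⟨r, hr⟩ : |dot (V a) (g - h)| ∣ K₂ := dvd_prod_of_mem _ hg
    obtain ⟨r', hr'⟩ := self_dvd_abs (dot (V a) (g - h))
    exact hmul _ ⟨L * K₁ * r * r', by rw [hM, hr, hr']; ring⟩ (mem_per_of_hyperplane
      (hlaplane _ (hψB g)) (per_le_meanL (hψB g) la (hψg g))) x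

/-- The ranges of two pieces add up to at most one, given one averaged equation. -/
theorem range_pair {φ : (Fin d → ℤ) → ℝ} (hφB : Bdd φ) (hφ0 : ∀ x, 0 ≤ φ x)
    {V : Fin m → Fin d → ℤ} (hpw : ∀ i j, i ≠ j → Indep (V i) (V j))
    {L : ℤ} {P : (Fin d → ℤ) → ℝ} {u : Fin m → (Fin d → ℤ) → ℝ} (hL : 0 < L)
    (hP : ∀ w, L • w ∈ per P) (hu : ∀ i w, dot (V i) w = 0 → L • w ∈ per (u i))
    (hsum : ∀ x, φ x = P x + ∑ i, u i x) (hB : ∀ i, Bdd (u i)) {i j : Fin m} (hij : i ≠ j)
    {E : Finset (Fin d → ℤ)} {h : Fin d → ℤ} {q : ℤ} (hq0 : 0 < q)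
    {ψ : (Fin d → ℤ) → (Fin d → ℤ) → ℝ} (hψB : ∀ g, Bdd (ψ g)) (hψ0 : ∀ g x, 0 ≤ ψ g x)
    (hψg : ∀ g, q • (g - h) ∈ per (ψ g)) (hψsum' : ∀ x, φ x = 1 - ∑ g ∈ E, ψ g x)
    (hne : ∀ g ∈ E, dot (V i) (g - h) = 0 → dot (V j) (g - h) ≠ 0) :
    ∃ L' : ℤ, 0 < L' ∧ ∀ x w w' z z', u i (x + L' • w) - u i (x + L' • w') +
      (u j (x + L' • z) - u j (x + L' • z')) ≤ 1 := by
  classical
  obtain ⟨c, si, sj, hc, hii, hji, hij', hjj⟩ := (hpw i j hij).dual
  let β : Fin m → (Fin d → ℤ) → ℤ := fun l g =>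
    if dot (V l) (g - h) = 0 then 1 else dot (V l) (g - h)
  have hβ : ∀ l g, β l g ≠ 0 := fun l g => by
    simp only [β]; split_ifs with e
    · exact one_ne_zero
    · exact e
  set N : ℤ := L * (q * ∏ g ∈ E, (|β i g| * |β j g|)) with hNdef
  have hN : 0 < N := mul_pos hL (mul_pos hq0
    (prod_pos fun g _ => mul_pos (abs_pos.2 (hβ i g)) (abs_pos.2 (hβ j g))))
  have hdiv : ∀ l ∈ ({i, j} : Finset (Fin m)), ∀ g ∈ E, dot (V l) (g - h) ≠ 0 →
      q * dot (V l) (g - h) ∣ N := by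
    intro l hl g hg h1
    have e : |β i g| * |β j g| ∣ ∏ g ∈ E, (|β i g| * |β j g|) :=
      dvd_prod_of_mem (fun g => |β i g| * |β j g|) hg
    refine dvd_mul_of_dvd_right (mul_dvd_mul_left q (dvd_trans ?_ e)) L
    rw [← (if_neg h1 : β l g = dot (V l) (g - h))]
    simp only [mem_insert, mem_singleton] at hl
    rcases hl with rfl | rfl
    · exact (self_dvd_abs _).trans (dvd_mul_right _ _)
    · exact (self_dvd_abs _).trans (dvd_mul_left _ _)
  -- the generators of the common kernel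
  let gen : Fin d → Fin d → ℤ := fun k => c • Pi.single k 1 - V i k • si - V j k • sj
  have hsingle : ∀ (a : Fin d → ℤ) k, dot a (Pi.single k 1) = a k := fun a k => by
    simp [dot_apply, Pi.single_apply]
  have hgen : ∀ k, dot (V i) (gen k) = 0 ∧ dot (V j) (gen k) = 0 := fun k => by
    constructor <;> simp only [gen, map_sub, dot_smul, hsingle, hii, hij', hji, hjj] <;> ring
  have hexp : ∀ y, c • y = ∑ k, y k • gen k + (dot (V i) y • si + dot (V j) y • sj) := by
    intro y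
    funext l
    simp only [gen, Pi.add_apply, Finset.sum_apply, Pi.smul_apply, Pi.sub_apply, smul_eq_mul,
      mul_sub, sum_sub_distrib, Pi.single_apply, mul_ite, mul_one, mul_zero, sum_ite_eq, mem_univ,
      if_true]
    rw [dot_apply, dot_apply, sum_mul, sum_mul]
    simp only [mul_comm, mul_left_comm]
    ring
  obtain ⟨Mi, hMi, hΦi, hupi⟩ := side hφB hpw hL hP hu hsum hB hq0 hψB hψg hψsum' i (V j) hc
    (gen := gen) (fun k => (hgen k).1) hij'
    (fun y hy => by rw [hexp, hy, zero_smul, zero_add]) hN (dvd_mul_right _ _)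
    (fun g hg h0 => hdiv j (by simp) g hg (hne g hg h0))
  obtain ⟨Mj, hMj, hΦj, hupj⟩ := side hφB hpw hL hP hu hsum hB hq0 hψB hψg hψsum' j (V i) hc
    (gen := gen) (fun k => (hgen k).2) hji
    (fun y hy => by rw [hexp, hy, zero_smul, add_zero]) hN (dvd_mul_right _ _)
    (fun g hg h0 => hdiv i (by simp) g hg fun h1 => hne g hg h1 h0)
  set ws : List (Fin d → ℤ) := List.ofFn fun k => N • gen k
  set Φi : (Fin d → ℤ) → ℝ := fun x => ∑ g ∈ E.filter (fun g => dot (V i) (g - h) = 0),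
    meanL ws (ψ g) x
  set Φj : (Fin d → ℤ) → ℝ := fun x => ∑ g ∈ E.filter (fun g => dot (V j) (g - h) = 0),
    meanL ws (ψ g) x
  have hnn : ∀ g x, 0 ≤ meanL ws (ψ g) x := fun g x => by
    have := meanL_mono (bdd_const 0) (hψB g) (fun y => hψ0 g y) ws x
    rwa [meanL_const] at this
  have hle : ∀ x, Φi x + Φj x ≤ 1 := fun x => by
    have hd : Disjoint (E.filter fun g => dot (V i) (g - h) = 0)
        (E.filter fun g => dot (V j) (g - h) = 0) := by
      rw [Finset.disjoint_left]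
      intro g hg hg'
      exact hne g (mem_filter.1 hg).1 (mem_filter.1 hg).2 (mem_filter.1 hg').2
    have h1 : Φi x + Φj x ≤ ∑ g ∈ E, meanL ws (ψ g) x := by
      rw [← sum_union hd]
      exact sum_le_sum_of_subset_of_nonneg (union_subset (filter_subset _ _) (filter_subset _ _))
        fun g _ _ => hnn g x
    refine h1.trans ?_
    have h2 := meanL_mono (Bdd.sum (s := E) fun g _ => hψB g) (bdd_const 1) (fun y => by
      have := hψsum' y; linarith [hφ0 y]) ws x
    rwa [meanL_sum fun g _ => hψB g, meanL_const] at h2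
  have h0i : ∀ x, 0 ≤ Φi x := fun x => sum_nonneg fun g _ => hnn g x
  have h0j : ∀ x, 0 ≤ Φj x := fun x => sum_nonneg fun g _ => hnn g x
  refine ⟨Mi * Mj * c, mul_pos (mul_pos hMi hMj) hc, fun x w w' z z' => ?_⟩
  set T : ℤ := Mi * Mj * c with hT
  set p : Fin d → ℤ := x + (Mi * Mj) • (dot (V i) w' • si + dot (V j) z' • sj) with hp
  have ei : ∀ v, u i (x + T • v) = (u i x + Φi x) - Φi (x + T • v) := fun v => by
    have h1 := hupi ((Mj * c) • v) x
    simp only at h1
    rw [smul_smul, ← mul_assoc, ← hT] at h1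
    show _ = u i x + Φi x - Φi (x + T • v)
    linarith
  have ej : ∀ v, u j (x + T • v) = (u j x + Φj x) - Φj (x + T • v) := fun v => by
    have h1 := hupj ((Mi * c) • v) x
    simp only at h1
    rw [smul_smul, show Mj * (Mi * c) = T by rw [hT]; ring] at h1
    linarith
  have pi' : Φi p = Φi (x + T • w') := by
    have h1 := hΦi (Mj • (dot (V i) w' • si + dot (V j) z' • sj - c • w'))
      (by simp only [dot_smul, map_add, map_sub, hii, hij']; ring) (x + T • w')
    rw [hp, ← h1]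
    congr 1
    simp only [smul_sub, smul_add, smul_smul, hT, mul_assoc]
    abel
  have pj' : Φj p = Φj (x + T • z') := by
    have h1 := hΦj (Mi • (dot (V i) w' • si + dot (V j) z' • sj - c • z'))
      (by simp only [dot_smul, map_add, map_sub, hji, hjj]; ring) (x + T • z')
    rw [hp, ← h1]
    congr 1
    simp only [smul_sub, smul_add, smul_smul, hT, mul_comm Mi Mj, mul_assoc]
    abel
  have := hle p
  rw [ei, ei, ej, ej]
  linarith [h0i (x + T • w), h0j (x + T • z)]

/-- The ranges of two pieces add up to at most one. -/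
theorem pair_range {F : Finset (Fin d → ℤ)} {A : Set (Fin d → ℤ)} (hA : Tiles A F)
    {V : Fin m → Fin d → ℤ} (hpw : ∀ i j, i ≠ j → Indep (V i) (V j))
    {L : ℤ} {P : (Fin d → ℤ) → ℝ} {u : Fin m → (Fin d → ℤ) → ℝ} (hL : 0 < L)
    (hP : ∀ w, L • w ∈ per P) (hu : ∀ i w, dot (V i) w = 0 → L • w ∈ per (u i))
    (hsum : ∀ x, ind A x = P x + ∑ i, u i x) (hB : ∀ i, Bdd (u i)) {i j : Fin m} (hij : i ≠ j)
    {h : Fin d → ℤ} (hh : h ∈ F)
    (hlone : ∀ g ∈ F, g ≠ h → dot (V i) g ≠ dot (V i) h ∨ dot (V j) g ≠ dot (V j) h) :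
    ∃ L' : ℤ, 0 < L' ∧ ∀ x w w' z z', u i (x + L' • w) - u i (x + L' • w') +
      (u j (x + L' • z) - u j (x + L' • z')) ≤ 1 := by
  classical
  obtain ⟨ψ, hψ, hψg, -, hψsum⟩ := exists_average (eqn_ind hA) hh
  refine range_pair (bdd_ind A) (fun x => (ind_mem_Icc A x).1) hpw hL hP hu hsum hB hij
    (E := F.erase h) (q := step F) (by simp [step, Nat.factorial_pos])
    (fun g => ⟨1, fun x => abs_le.2 ⟨by linarith [((hψ g).1 x).1], ((hψ g).1 x).2⟩⟩)
    (fun g x => ((hψ g).1 x).1) hψg hψsum fun g hg h0 h1 => ?_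
  obtain ⟨hgh, hgF⟩ := mem_erase.1 hg
  rw [map_sub, sub_eq_zero] at h0 h1
  exact (hlone g hgF hgh).elim (fun e => e h0) (fun e => e h1)

end Vale.Agent.P043.Space
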