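import Mathlib
import Vale.Agent.P043.Rows.PlaneSeq

/-!
Helper for P043: a sequence with integral iterated differences and range of diameter at most one
half is periodic modulo one (van der Corput, with geometric sums only).
-/

namespace Vale.Agent.P043.Space

open Finset Filter Topology
open Rows (IsI Per1 fwdDiff_iter_sub)

/-- `e t = exp (2 π i t)`. -/
noncomputable def ee (t : ℝ) : ℂ := Complex.exp ((2 * Real.pi * t : ℝ) * Complex.I)

theorem ee_add (s t : ℝ) : ee (s + t) = ee s * ee t := by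
  rw [ee, ee, ee, ← Complex.exp_add]; push_cast; ring_nf

theorem norm_ee (t : ℝ) : ‖ee t‖ = 1 := Complex.norm_exp_ofReal_mul_I _

theorem ee_eq_one_iff {t : ℝ} : ee t = 1 ↔ IsI t := by
  rw [ee, Complex.exp_eq_one_iff]
  refine ⟨fun ⟨k, hk⟩ => ⟨k, ?_⟩, fun ⟨k, hk⟩ => ⟨k, by subst hk; push_cast; ring⟩⟩
  have := congrArg Complex.im hk
  simp at this
  nlinarith [Real.pi_pos]

theorem ee_congr {s t : ℝ} (h : IsI (s - t)) : ee s = ee t := by
  rw [← sub_add_cancel s t, ee_add, ee_eq_one_iff.2 h, one_mul]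

theorem ee_nat_mul (n : ℕ) (t : ℝ) : ee (n * t) = ee t ^ n := by
  induction n with
  | zero => simp [ee_eq_one_iff, Rows.isI_zero]
  | succ n ih => rw [pow_succ, ← ih, ← ee_add]; push_cast; ring_nf

theorem ee_mul_conj (s t : ℝ) : ee s * (starRingEnd ℂ) (ee t) = ee (s - t) := by
  simp only [ee, ← Complex.exp_conj, map_mul, Complex.conj_ofReal, Complex.conj_I,
    ← Complex.exp_add]
  push_cast; ring_nf

/-- Exponential mean zero. -/
def MeanZero (θ : ℤ → ℝ) : Prop :=
  Tendsto (fun N : ℕ => (∑ n ∈ range N, ee (θ n)) / (N : ℂ)) atTop (𝓝 0)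

/-- Van der Corput. -/
theorem vdc {θ : ℤ → ℝ}
    (h : ∀ i j : ℕ, i ≠ j → MeanZero fun n => θ (n + i) - θ (n + j)) : MeanZero θ := by
  rw [MeanZero, NormedAddGroup.tendsto_nhds_zero]
  intro ε hε
  obtain ⟨H, hH⟩ := exists_nat_gt (8 / ε ^ 2)
  have hH0 : (0 : ℝ) < H := lt_of_le_of_lt (by positivity) hH
  have hev : ∀ᶠ N : ℕ in atTop, ∀ p ∈ (range H).offDiag,
      ‖(∑ n ∈ range N, ee (θ (n + (p.1 : ℕ)) - θ (n + (p.2 : ℕ)))) / (N : ℂ)‖ < 1 / (H : ℝ) :=
    (Finset.eventually_all _).2 fun p hp =>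
      NormedAddGroup.tendsto_nhds_zero.1 (h p.1 p.2 (mem_offDiag.1 hp).2.2) _ (by positivity)
  filter_upwards [hev, eventually_ge_atTop (⌈4 * (H : ℝ) / ε⌉₊ + 1)] with N hN hNbig
  have hN1 : 4 * (H : ℝ) / ε < N :=
    (Nat.le_ceil _).trans_lt (by exact_mod_cast hNbig)
  have hN0 : (0 : ℝ) < N := lt_of_le_of_lt (by positivity) hN1
  set A := ∑ n ∈ range N, ee (θ n) with hA
  set w : ℕ → ℂ := fun n => ∑ i ∈ range H, ee (θ ((n : ℤ) + (i : ℕ))) with hw
  have hshift : ∀ i : ℕ, ‖(∑ n ∈ range N, ee (θ ((n : ℤ) + (i : ℕ)))) - A‖ ≤ 2 * i := by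
    intro i
    induction i with
    | zero => simp [hA]
    | succ i ih =>
      have e : (∑ n ∈ range N, ee (θ ((n : ℤ) + ((i + 1 : ℕ) : ℤ))))
          - ∑ n ∈ range N, ee (θ ((n : ℤ) + (i : ℕ)))
          = ee (θ ((N : ℤ) + (i : ℕ))) - ee (θ ((0 : ℕ) + (i : ℕ) : ℤ)) := by
        rw [← sum_sub_distrib,
          ← sum_range_sub (fun n : ℕ => ee (θ ((n : ℤ) + (i : ℕ)))) N]
        exact sum_congr rfl fun n _ => by push_cast; ring_nf
      calc _ = ‖(ee (θ ((N : ℤ) + (i : ℕ))) - ee (θ ((0 : ℕ) + (i : ℕ) : ℤ)))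
            + ((∑ n ∈ range N, ee (θ ((n : ℤ) + (i : ℕ)))) - A)‖ := by rw [← e, sub_add_sub_cancel]
        _ ≤ _ := (norm_add_le _ _).trans (by
            have h2 := norm_sub_le (ee (θ ((N : ℤ) + (i : ℕ)))) (ee (θ ((0 : ℕ) + (i : ℕ) : ℤ)))
            rw [norm_ee, norm_ee] at h2
            push_cast at h2 ⊢
            linarith)
  have h1 : (H : ℝ) * ‖A‖ ≤ (∑ n ∈ range N, ‖w n‖) + 2 * (H : ℝ) ^ 2 := by
    have e : (H : ℂ) * A = (∑ n ∈ range N, w n)
        - ∑ i ∈ range H, ((∑ n ∈ range N, ee (θ ((n : ℤ) + (i : ℕ)))) - A) := by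
      rw [sum_sub_distrib, sum_const, card_range, nsmul_eq_mul, hw, sum_comm]; ring
    have := norm_sub_le (∑ n ∈ range N, w n)
      (∑ i ∈ range H, ((∑ n ∈ range N, ee (θ ((n : ℤ) + (i : ℕ)))) - A))
    rw [← e, norm_mul, Complex.norm_natCast] at this
    refine this.trans (add_le_add (norm_sum_le _ _) ((norm_sum_le _ _).trans ?_))
    refine (sum_le_card_nsmul _ _ (2 * (H : ℝ)) fun i hi => (hshift i).trans ?_).trans
      (le_of_eq (by rw [card_range, nsmul_eq_mul]; ring))
    have : (i : ℝ) ≤ H := by exact_mod_cast (mem_range.1 hi).le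
    linarith
  have h2 : ∑ n ∈ range N, ‖w n‖ ^ 2 ≤ 2 * (H : ℝ) * N := by
    have e : ((∑ n ∈ range N, ‖w n‖ ^ 2 : ℝ) : ℂ) = ∑ i ∈ range H, ∑ j ∈ range H,
        ∑ n ∈ range N, ee (θ ((n : ℤ) + (i : ℕ)) - θ ((n : ℤ) + (j : ℕ))) := by
      rw [Complex.ofReal_sum]
      simp only [← Complex.normSq_eq_norm_sq, ← Complex.mul_conj, hw, map_sum, sum_mul, mul_sum,
        ee_mul_conj]
      conv_rhs => rw [sum_comm]
      rw [sum_comm]
      refine sum_congr rfl fun i _ => ?_
      rw [sum_comm]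
    have e2 := congrArg norm e
    rw [Complex.norm_real, Real.norm_of_nonneg (sum_nonneg fun _ _ => sq_nonneg _)] at e2
    rw [e2]
    refine (norm_sum_le _ _).trans ((sum_le_card_nsmul _ _ (2 * (N : ℝ)) fun i hi => ?_).trans
      (le_of_eq (by rw [card_range, nsmul_eq_mul]; ring)))
    refine (norm_sum_le _ _).trans ?_
    rw [← add_sum_erase _ _ hi]
    have hd : ‖∑ n ∈ range N, ee (θ ((n : ℤ) + (i : ℕ)) - θ ((n : ℤ) + (i : ℕ)))‖ = (N : ℝ) := by
      simp [ee_eq_one_iff.2 Rows.isI_zero]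
    have ho : ∀ j ∈ (range H).erase i,
        ‖∑ n ∈ range N, ee (θ ((n : ℤ) + (i : ℕ)) - θ ((n : ℤ) + (j : ℕ)))‖ ≤ (N : ℝ) / H := by
      intro j hj
      have := (hN (i, j) (mem_offDiag.2 ⟨hi, mem_of_mem_erase hj, (ne_of_mem_erase hj).symm⟩)).le
      rw [norm_div, Complex.norm_natCast, div_le_iff₀ hN0] at this
      exact this.trans (le_of_eq (by ring))
    have hs := sum_le_card_nsmul _ _ ((N : ℝ) / H) ho
    rw [nsmul_eq_mul] at hs
    have hc : (((range H).erase i).card : ℝ) ≤ H := by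
      exact_mod_cast (card_erase_le).trans (card_range H).le
    have : (((range H).erase i).card : ℝ) * ((N : ℝ) / H) ≤ N := by
      calc _ ≤ (H : ℝ) * ((N : ℝ) / H) := mul_le_mul_of_nonneg_right hc (by positivity)
        _ = N := by field_simp
    rw [hd]
    linarith
  have h3 : (∑ n ∈ range N, ‖w n‖) ≤ (H : ℝ) * N * ε / 2 := by
    have := sq_sum_le_card_mul_sum_sq (s := range N) (f := fun n => ‖w n‖)
    rw [card_range] at this
    refine (sq_le_sq₀ (sum_nonneg fun _ _ => norm_nonneg _) (by positivity)).1 ?_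
    refine this.trans ((mul_le_mul_of_nonneg_left h2 hN0.le).trans ?_)
    rw [div_lt_iff₀ (by positivity)] at hH
    have := mul_le_mul_of_nonneg_left hH.le (show 0 ≤ (H : ℝ) * (N : ℝ) ^ 2 by positivity)
    nlinarith
  rw [norm_div, Complex.norm_natCast, div_lt_iff₀ hN0]
  rw [div_lt_iff₀ hε] at hN1
  nlinarith

theorem shift_iter (g : ℤ → ℝ) (a : ℤ) (r : ℕ) : ∀ n,
    (fwdDiff 1)^[r] (fun k => g (k + a)) n = (fwdDiff 1)^[r] g (n + a) := by
  induction r with
  | zero => intro n; rfl
  | succ r ih =>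
    intro n
    simp only [Function.iterate_succ_apply']
    simp only [fwdDiff, ih, add_right_comm]

/-- A constant difference modulo one gives an affine sequence modulo one. -/
theorem drift {G : ℤ → ℝ} {c : ℝ} (h : ∀ n, IsI (G (n + 1) - G n - c)) (n : ℤ) :
    IsI (G n - G 0 - n * c) := by
  induction n using Int.induction_on with
  | zero => simp [Rows.isI_zero]
  | succ i ih => convert (h i).add ih using 1; push_cast; ring
  | pred i ih =>
    convert ih.sub (h (-(i : ℤ) - 1)) using 1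
    rw [sub_add_cancel]; push_cast; ring

/-- Weyl: mean zero when the top difference is not rational modulo one. -/
theorem meanZero_of_diff : ∀ (r : ℕ) (θ : ℤ → ℝ) (c : ℝ), (∀ q : ℤ, q ≠ 0 → ¬IsI (q * c)) →
    (∀ n, IsI ((fwdDiff 1)^[r + 1] θ n - c)) → MeanZero θ := by
  intro r
  induction r with
  | zero =>
    intro θ c hc h
    have hz : ee c ≠ 1 := fun e => hc 1 one_ne_zero (by simpa using ee_eq_one_iff.1 e)
    have hd : ∀ n : ℤ, IsI (θ (n + 1) - θ n - c) := fun n => by simpa [fwdDiff] using h n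
    have he : ∀ n : ℕ, ee (θ n) = ee (θ 0) * ee c ^ n := fun n => by
      rw [← ee_nat_mul, ← ee_add]
      refine ee_congr ?_
      convert drift hd n using 1
      push_cast; ring
    refine squeeze_zero_norm (fun N => ?_) (tendsto_const_div_atTop_nhds_zero_nat (2 / ‖ee c - 1‖))
    rw [norm_div, Complex.norm_natCast]
    refine div_le_div_of_nonneg_right ?_ (Nat.cast_nonneg N)
    simp only [he, ← mul_sum, geom_sum_eq hz, norm_mul, norm_ee, one_mul, norm_div]
    refine div_le_div_of_nonneg_right ((norm_sub_le _ _).trans ?_) (norm_nonneg _)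
    rw [norm_pow, norm_ee, one_pow, norm_one]; norm_num
  | succ r ih =>
    intro θ c hc h
    refine vdc fun i j hij => ih _ (((i : ℤ) - j : ℤ) * c) (fun q hq => ?_) fun n => ?_
    · rw [← mul_assoc, ← Int.cast_mul]
      exact hc _ (mul_ne_zero hq (sub_ne_zero.2 (by exact_mod_cast hij)))
    · have e : (fun k : ℤ => θ (k + i) - θ (k + j)) = (fun k => θ (k + i)) - fun k => θ (k + j) := rfl
      rw [e, fwdDiff_iter_sub, shift_iter, shift_iter]
      have hd : ∀ m : ℤ, IsI ((fwdDiff 1)^[r + 1] θ (m + 1) - (fwdDiff 1)^[r + 1] θ m - c) :=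
        fun m => by
          simpa only [Function.iterate_succ_apply' _ (r + 1), fwdDiff] using h m
      convert (drift hd (n + i)).sub (drift hd (n + j)) using 1
      push_cast; ring

theorem diff_step (g : ℤ → ℝ) (c : ℝ) (q : ℕ) : ∀ r : ℕ,
    (∀ n, IsI ((fwdDiff 1)^[r] g n - c)) →
    ∀ n, IsI ((fwdDiff (q : ℤ))^[r] g n - (q : ℝ) ^ r * c) := by
  intro r
  induction r generalizing g c with
  | zero => intro h n; simpa using h n
  | succ r ih =>
    intro h n
    rw [Function.iterate_succ_apply, pow_succ, mul_assoc]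
    refine ih (fwdDiff (q : ℤ) g) ((q : ℝ) * c) (fun m => ?_) n
    have e : fwdDiff (q : ℤ) g = (fun k => g (k + q)) - g := rfl
    rw [e, fwdDiff_iter_sub, shift_iter]
    have hd : ∀ k : ℤ, IsI ((fwdDiff 1)^[r] g (k + 1) - (fwdDiff 1)^[r] g k - c) :=
      fun k => by simpa only [Function.iterate_succ_apply' _ r, fwdDiff] using h k
    convert (drift hd (m + q)).sub (drift hd m) using 1
    push_cast; ring

theorem subseq_iter (g : ℤ → ℝ) (a : ℤ) (q : ℕ) (r : ℕ) : ∀ n,
    (fwdDiff 1)^[r] (fun k => g (a + q * k)) n = (fwdDiff (q : ℤ))^[r] g (a + q * n) := by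
  induction r with
  | zero => intro n; rfl
  | succ r ih =>
    intro n
    simp only [Function.iterate_succ_apply']
    simp only [fwdDiff, ih, mul_add, mul_one, add_assoc]

/-- Integral differences and small range give periodicity modulo one. -/
theorem per1_of_small_range {r : ℕ} {g : ℤ → ℝ} (h : ∀ n, IsI ((fwdDiff 1)^[r] g n))
    (hr : ∀ n k, g n - g k ≤ 1 / 2) : Per1 g := by
  induction r generalizing g with
  | zero => exact ⟨1, one_pos, fun n => (h _).sub (h n)⟩
  | succ r ih =>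
    set c := (fwdDiff 1)^[r] g 0 with hc
    have hcn : ∀ n, IsI ((fwdDiff 1)^[r] g n - c) := fun n => by
      have := drift (G := (fwdDiff 1)^[r] g) (c := 0) (fun m => by
        simpa only [Function.iterate_succ_apply' _ r, fwdDiff, sub_zero] using h m) n
      simpa [hc] using this
    rcases r with _ | r
    · exact ⟨1, one_pos, fun n => by
        have := (hcn (n + 1)).sub (hcn n)
        simpa using this⟩
    by_cases hrat : ∃ q : ℕ, 0 < q ∧ IsI (q * c)
    · obtain ⟨q, hq, hqc⟩ := hrat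
      have hsub : ∀ a : ℤ, Per1 fun k => g (a + q * k) := fun a => by
        refine ih (fun n => ?_) fun n k => hr _ _
        rw [subseq_iter]
        obtain ⟨z, hz⟩ := diff_step g c q (r + 1) hcn (a + q * n)
        obtain ⟨w, hw⟩ := hqc
        exact ⟨z + (q : ℤ) ^ r * w, by rw [sub_eq_iff_eq_add] at hz; rw [hz, pow_succ, mul_assoc, hw]; push_cast; ring⟩
      choose L hL hper using hsub
      refine ⟨q * ∏ i ∈ range q, L i, Nat.mul_pos hq (prod_pos fun i _ => hL _), fun n => ?_⟩
      set a : ℕ := (n % (q : ℤ)).toNat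
      have hmod := Int.emod_nonneg n (show (q : ℤ) ≠ 0 by omega)
      have ha : a ∈ range q := mem_range.2 (by have := Int.emod_lt_of_pos n (show (0 : ℤ) < q by omega); omega)
      obtain ⟨k, hk⟩ := dvd_prod_of_mem (fun i : ℕ => L (i : ℤ)) ha
      have := Per1.mul (g := fun k => g ((a : ℤ) + q * k)) (hper (a : ℤ)) (k : ℤ) (n / (q : ℤ))
      have e : (a : ℤ) + q * (n / (q : ℤ)) = n := by
        rw [Int.toNat_of_nonneg hmod]; exact Int.emod_add_mul_ediv n q
      rw [e, mul_add, ← add_assoc, e] at this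
      convert this using 4
      rw [hk]; push_cast; ring
    · exfalso
      push Not at hrat
      have hNR : ∀ q : ℤ, q ≠ 0 → ¬IsI (q * c) := fun q hq hI => by
        rcases Int.natAbs_eq q with e | e
        · refine hrat q.natAbs (Int.natAbs_pos.2 hq) ?_
          rw [e] at hI; simpa using hI
        · refine hrat q.natAbs (Int.natAbs_pos.2 hq) ?_
          rw [e] at hI; simpa using hI.neg
      have m1 := meanZero_of_diff r g c hNR hcn
      have m2 : MeanZero (2 • g) := meanZero_of_diff r _ (2 * c) (fun q hq => by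
        rw [← mul_assoc, show (q : ℝ) * 2 = ((q * 2 : ℤ) : ℝ) by push_cast; ring]
        exact hNR _ (mul_ne_zero hq two_ne_zero)) fun n => by
          rw [fwdDiff_iter_const_smul, nsmul_eq_mul]
          obtain ⟨z, hz⟩ := hcn n
          exact ⟨2 * z, by simp only [Pi.mul_apply, Pi.natCast_apply]; push_cast; linarith⟩
      have hbdd : BddBelow (Set.range g) :=
        ⟨g 0 - 1 / 2, by rintro _ ⟨n, rfl⟩; linarith [hr 0 n]⟩
      set t := ⨅ n, g n
      have ht : ∀ n, g n - t ∈ Set.Icc (0 : ℝ) (1 / 2) := fun n =>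
        ⟨sub_nonneg.2 (ciInf_le hbdd n), by
          linarith [le_ciInf fun k => (show g n - 1 / 2 ≤ g k by linarith [hr n k])]⟩
      set f : ℕ → ℝ := fun n => Real.sin (2 * Real.pi * (g n - t))
      have him : ∀ x : ℝ, (ee x).im = Real.sin (2 * Real.pi * x) := fun x =>
        Complex.exp_ofReal_mul_I_im _
      have hre : ∀ x : ℝ, (ee x).re = Real.cos (2 * Real.pi * x) := fun x =>
        Complex.exp_ofReal_mul_I_re _
      have t1 : Tendsto (fun N : ℕ => (∑ n ∈ range N, f n) / N) atTop (𝓝 0) := by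
        have e := (Complex.continuous_im.tendsto _).comp (Tendsto.const_mul (ee (-t)) m1)
        simp only [mul_zero, Complex.zero_im] at e
        refine e.congr fun N => ?_
        simp only [Function.comp_apply, mul_div_assoc', mul_sum, ← ee_add, Complex.div_natCast_im,
          Complex.im_sum, him, f, neg_add_eq_sub]
      have t2 : Tendsto (fun N : ℕ => (∑ n ∈ range N, f n ^ 2) / N) atTop (𝓝 (1 / 2)) := by
        have e := (Complex.continuous_re.tendsto _).comp (Tendsto.const_mul (ee (-(2 * t))) m2)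
        simp only [mul_zero, Complex.zero_re] at e
        have e2 := (Tendsto.const_mul (1 / 2 : ℝ) e).const_sub (1 / 2)
        rw [mul_zero, sub_zero] at e2
        refine e2.congr' ((eventually_gt_atTop 0).mono fun N hN => ?_)
        simp only [Function.comp_apply, mul_div_assoc', mul_sum, ← ee_add, Complex.div_natCast_re,
          Complex.re_sum, hre, f]
        have hp : ∀ n : ℕ, Real.sin (2 * Real.pi * (g n - t)) ^ 2
            = 1 / 2 - 1 / 2 * Real.cos (2 * Real.pi * (-(2 * t) + (2 • g) (n : ℤ))) := fun n => by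
          rw [Real.sin_sq_eq_half_sub]; simp; ring_nf
        simp only [hp, sum_sub_distrib, sum_const, card_range, nsmul_eq_mul, ← mul_sum]
        have : (N : ℝ) ≠ 0 := by positivity
        field_simp
      have hle : ∀ N : ℕ, (∑ n ∈ range N, f n ^ 2) / N ≤ (∑ n ∈ range N, f n) / N := fun N => by
        refine div_le_div_of_nonneg_right (sum_le_sum fun n _ => ?_) (Nat.cast_nonneg N)
        obtain ⟨h0, h1⟩ := ht n
        have s0 : 0 ≤ f n := Real.sin_nonneg_of_nonneg_of_le_pi (by positivity)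
          (by nlinarith [Real.pi_pos])
        have s1 : f n ≤ 1 := Real.sin_le_one _
        nlinarith
      linarith [le_of_tendsto_of_tendsto' t2 t1 hle]

end Vale.Agent.P043.Space
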