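import Mathlib
import Vale.Agent.P043.Space.Main
import Vale.Agent.P043.Space.Pair
import Vale.Agent.P043.Space.Diff
import Vale.Agent.P043.Space.Weyl
import Vale.Agent.P043.Space.Dirs

/-!
Helper for P043: finite tiles of `ℤ^d` with a point alone in some fibre of every map to `ℤ²` have
periodic tilings.
-/

namespace Vale.Agent.P043.Space

open Finset
open Rows (IsI Per1)

variable {d m : ℕ}

theorem mod_add_smul (y : Fin d → ℤ) (K : ℤ) :
    y = (fun k => y k % K) + K • fun k => y k / K := by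
  funext k; simp [Int.emod_add_mul_ediv]

/-- Periods along a hyperplane and along one transversal vector give a lattice of periods. -/
theorem lattice_mem_per {a τ : Fin d → ℤ} {φ : (Fin d → ℤ) → ℝ} {K : ℤ}
    (hker : ∀ y, dot a y = 0 → K • y ∈ per φ) (hτ : K • τ ∈ per φ) (w : Fin d → ℤ) :
    (K * dot a τ) • w ∈ per φ := by
  have key : ∀ A B : ℤ, (K * A) • w = K • (A • w - B • τ) + B • K • τ := by
    intro A B; rw [smul_sub, smul_smul, smul_smul, smul_smul, mul_comm B]; abel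
  rw [key (dot a τ) (dot a w)]
  exact add_mem (hker _ (by rw [map_sub, dot_smul, dot_smul]; ring)) (zsmul_mem hτ _)

/-- On every class of some lattice at most one piece varies. -/
theorem exists_one_varying {F : Finset (Fin d → ℤ)} {A : Set (Fin d → ℤ)} (hA : Tiles A F)
    {V : Fin m → Fin d → ℤ} (hm : 0 < m) (hV0 : ∀ i, V i ≠ 0)
    (hpw : ∀ i j, i ≠ j → Indep (V i) (V j))
    (hF : ∀ i j, i ≠ j → ∃ h ∈ F, ∀ g ∈ F, g ≠ h →
      dot (V i) g ≠ dot (V i) h ∨ dot (V j) g ≠ dot (V j) h)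
    {L : ℤ} {P : (Fin d → ℤ) → ℝ} {u : Fin m → (Fin d → ℤ) → ℝ} (hL : 0 < L)
    (hP : ∀ w, L • w ∈ per P) (hu : ∀ i w, dot (V i) w = 0 → L • w ∈ per (u i))
    (hsum : ∀ x, ind A x = P x + ∑ i, u i x) (hB : ∀ i, Bdd (u i)) :
    ∃ K : ℤ, 0 < K ∧ L ∣ K ∧ ∀ x, ∃ i₀, ∀ i, i ≠ i₀ → ∀ w, u i (x + K • w) = u i x := by
  classical
  have hrange : ∀ p : {p : Fin m × Fin m // p.1 ≠ p.2}, ∃ L' : ℤ, 0 < L' ∧
      ∀ x w w' z z', u p.1.1 (x + L' • w) - u p.1.1 (x + L' • w') +
        (u p.1.2 (x + L' • z) - u p.1.2 (x + L' • z')) ≤ 1 := fun p => by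
    obtain ⟨h, hh, hlone⟩ := hF _ _ p.2
    exact pair_range hA hpw hL hP hu hsum hB p.2 hh hlone
  choose L' hL' hL'r using hrange
  choose τ hτ hsteps using fun i => exists_steps i (hV0 i) fun l hl => (hpw l i hl).exists_perp
  set E : ℤ := L * ∏ p, L' p with hE
  have hE0 : 0 < E := mul_pos hL (prod_pos fun p _ => hL' p)
  have hsmul : ∀ {φ : (Fin d → ℤ) → ℝ} {a : Fin d → ℤ},
      (∀ w, dot a w = 0 → L • w ∈ per φ) → ∀ w, dot a w = 0 → E • w ∈ per φ := by
    intro φ a h w hw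
    rw [hE, mul_smul]
    exact h _ (by rw [dot_smul, hw, mul_zero])
  have hEP : ∀ w, E • w ∈ per P := fun w => by rw [hE, mul_smul]; exact hP _
  let Big : Fin m → (Fin d → ℤ) → Prop := fun i x =>
    ∃ w w', 1 / 2 < u i (x + E • w) - u i (x + E • w')
  have hone : ∀ x i j, i ≠ j → Big i x → Big j x → False := by
    rintro x i j hij ⟨w, w', h1⟩ ⟨z, z', h2⟩
    obtain ⟨r, hr⟩ : L' ⟨(i, j), hij⟩ ∣ E := dvd_mul_of_dvd_right (dvd_prod_of_mem _ (mem_univ _)) _
    have := hL'r ⟨(i, j), hij⟩ x (r • w) (r • w') (r • z) (r • z')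
    simp only [smul_smul, ← hr] at this
    linarith
  let e : Fin m → ℤ := fun i => dot (V i) (τ i)
  set D : ℤ := E * ∏ i, e i with hD
  have hD0 : 0 < D := mul_pos hE0 (prod_pos fun i _ => hτ i)
  have hline : ∀ i x (w : Fin d → ℤ),
      u i (x + (E * e i) • w) = u i (x + dot (V i) w • E • τ i) := by
    intro i x w
    have key : ∀ A B : ℤ, x + (E * A) • w = x + B • E • τ i + E • (A • w - B • τ i) := by
      intro A B; rw [smul_sub, smul_smul, smul_smul, smul_smul, mul_comm B]; abel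
    rw [key (e i) (dot (V i) w)]
    exact hsmul (hu i) _ (by rw [map_sub, dot_smul, dot_smul]; ring) _
  -- small pieces are periodic along their transversal
  have hsmall : ∀ i x, ∃ R : ℕ, 0 < R ∧
      (¬ Big i x → ∀ n, u i (x + (n + (R : ℤ)) • E • τ i) = u i (x + n • E • τ i)) := by
    intro i x
    by_cases hbig : Big i x
    · exact ⟨1, one_pos, fun h => absurd hbig h⟩
    obtain ⟨steps, hτs, hcong, hkill⟩ := hsteps i E
    simp only [Big, not_exists, not_lt] at hbig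
    set g : ℤ → ℝ := fun n => u i (x + n • E • τ i) with hg
    have hr : ∀ n k, g n - g k ≤ 1 / 2 := fun n k => by
      simp only [g, smul_comm _ E]
      exact hbig (n • τ i) (k • τ i)
    have hint : ∀ n, IsI ((fwdDiff 1)^[steps.length] g n) := fun n => by
      rw [← Dl_line (f := u i) (fun h hh => by
        obtain ⟨w, hw, e⟩ := hcong h hh; rw [e]; exact hsmul (hu i) w hw) x n]
      have hall : ∀ y, Dl steps (ind A) y = Dl steps (u i) y := fun y => by
        rw [show ind A = fun z => P z + ∑ l, u l z from funext hsum, Dl_add,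
          Dl_eq_zero hτs (hEP _), zero_add]
        refine Dl_others i (fun l hl => ?_) y
        obtain ⟨h, hh, w, hw, e⟩ := hkill l hl
        exact ⟨h, hh, e ▸ hsmul (hu l) w hw⟩
      rw [← hall]
      refine Dl_int steps (fun y => ?_) _
      by_cases hy : y ∈ A
      · exact ⟨1, by simp [ind_of_mem hy]⟩
      · exact ⟨0, by simp [ind_of_notMem hy]⟩
    obtain ⟨R, hR, hper⟩ := per1_of_small_range hint hr
    refine ⟨R, hR, fun _ n => ?_⟩
    obtain ⟨z, hz⟩ := hper n
    have h1 := hr (n + R) n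
    have h2 := hr n (n + R)
    have hz' : |(z : ℝ)| < 1 := by rw [← hz, abs_lt]; constructor <;> linarith
    have : |z| < 1 := by exact_mod_cast hz'
    rw [Int.abs_lt_one_iff.1 this, Int.cast_zero, sub_eq_zero] at hz
    exact hz
  choose R hR hRper using hsmall
  set B : Finset (Fin d → ℤ) := Fintype.piFinset fun _ => Finset.Ico 0 D with hBdef
  set K : ℤ := D * ∏ i, ∏ r ∈ B, (R i r : ℤ) with hK
  refine ⟨K, mul_pos hD0 (prod_pos fun i _ => prod_pos fun r _ => by exact_mod_cast hR i r),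
    dvd_mul_of_dvd_left (dvd_mul_of_dvd_left (dvd_mul_right _ _) _) _, fun x => ?_⟩
  obtain ⟨i₀, hi₀⟩ : ∃ i₀, ∀ i, i ≠ i₀ → ¬ Big i x := by
    by_cases hb : ∃ i, Big i x
    · obtain ⟨i₀, h0⟩ := hb
      exact ⟨i₀, fun i hi h => hone x i i₀ hi h h0⟩
    · exact ⟨⟨0, hm⟩, fun i _ h => hb ⟨i, h⟩⟩
  refine ⟨i₀, fun i hi w => ?_⟩
  have hb := hi₀ i hi
  set r : Fin d → ℤ := fun k => x k % D with hr
  set Q : Fin d → ℤ := fun k => x k / D with hQ
  have hx : x = r + D • Q := mod_add_smul x D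
  have hrB : r ∈ B := by simp [hBdef, r, Int.emod_nonneg _ hD0.ne', Int.emod_lt_of_pos _ hD0]
  have hbr : ¬ Big i r := fun ⟨a, a', h⟩ => hb
    ⟨a - (∏ l, e l) • Q, a' - (∏ l, e l) • Q, by
      have : ∀ a, x + E • (a - (∏ l, e l) • Q) = r + E • a := fun a => by
        rw [hx, hD, smul_sub, smul_smul]; abel
      rwa [this, this]⟩
  obtain ⟨ce, hce⟩ : e i ∣ ∏ l, e l := dvd_prod_of_mem _ (mem_univ i)
  obtain ⟨cr, hcr⟩ : (R i r : ℤ) ∣ ∏ l, ∏ r ∈ B, (R l r : ℤ) :=
    (dvd_prod_of_mem (fun r => (R i r : ℤ)) hrB).trans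
      (dvd_prod_of_mem (fun l => ∏ r ∈ B, (R l r : ℤ)) (mem_univ i))
  have hper : ∀ (k n : ℤ), u i (r + (n + k * (R i r : ℤ)) • E • τ i) = u i (r + n • E • τ i) := by
    intro k
    induction k using Int.induction_on with
    | zero => intro n; simp
    | succ k ih => intro n; rw [show n + ((k : ℤ) + 1) * (R i r : ℤ) = n + k * (R i r : ℤ) + (R i r : ℤ) by ring, hRper i r hbr, ih]
    | pred k ih =>
      intro n
      rw [← hRper i r hbr, show n + (-(k : ℤ) - 1) * (R i r : ℤ) + (R i r : ℤ) = n + -(k : ℤ) * (R i r : ℤ) by ring, ih]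
  have h1 : x + K • w = r + (E * e i) • (ce • (Q + (cr * (R i r : ℤ)) • w)) := by
    rw [hx, hK, hD, hcr, hce, smul_smul, smul_add, smul_smul, add_assoc]
    ring_nf
  have h2 : x = r + (E * e i) • (ce • Q) := by
    rw [hx, hD, hce, smul_smul]; ring_nf
  rw [h1, hline, h2, hline]
  conv_lhs => rw [dot_smul, map_add, dot_smul, mul_add,
    show ce * (cr * (R i r : ℤ) * dot (V i) w) = ce * cr * dot (V i) w * (R i r : ℤ) by ring]
  rw [hper, dot_smul]

/-- A tile with a lone point in some fibre of every map to `ℤ²` has a periodic tiling. -/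
theorem periodic_of_loneFibres {F : Finset (Fin d → ℤ)}
    (hF : ∀ a b : Fin d → ℤ, LinearIndependent ℚ ![fun k => (a k : ℚ), fun k => (b k : ℚ)] →
      ∃ h ∈ F, ∀ g ∈ F, g ≠ h →
        ∑ k, a k * g k ≠ ∑ k, a k * h k ∨ ∑ k, b k * g k ≠ ∑ k, b k * h k)
    {A : Set (Fin d → ℤ)} (hA : Tiles A F) :
    ∃ (A' : Set (Fin d → ℤ)) (P : ℤ), 0 < P ∧ Tiles A' F ∧
      ∀ y w, (y + P • w ∈ A' ↔ y ∈ A') := by
  classical
  obtain ⟨m, V, hV0, hpw, hV⟩ := exists_exceptional F hF
  obtain ⟨L, P, u, hL, hP, hu, hsum, hB⟩ := splits_of_eqn hV0 hV d (ind A) (eqn_ind hA) (by omega)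
  have hmem : ∀ {y z : Fin d → ℤ}, ind A y = ind A z → (y ∈ A ↔ z ∈ A) := fun {y z} e => by
    by_cases hy : y ∈ A <;> by_cases hz : z ∈ A <;> simp [ind, hy, hz] at e ⊢
  rcases Nat.eq_zero_or_pos m with rfl | hm
  · exact ⟨A, L, hL, hA, fun y w => hmem (by rw [hsum, hsum, hP w y]; simp)⟩
  obtain ⟨K, hK0, hLK, hone⟩ := exists_one_varying hA hm hV0 hpw
    (fun i j hij => hF (V i) (V j) (hpw i j hij)) hL hP hu hsum hB
  choose idx hidx using hone
  let rep : (Fin d → ℤ) → Fin d → ℤ := fun y k => y k % K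
  have hrep : ∀ y w, rep (y + K • w) = rep y := fun y w => by funext k; simp [rep]
  let S : Fin m → Set (Fin d → ℤ) := fun i => {y | y ∈ A ∧ idx (rep y) = i}
  have hS : ∀ i y w, dot (V i) w = 0 → (y + K • w ∈ S i ↔ y ∈ S i) := by
    intro i y w hw
    simp only [S, Set.mem_ofPred_eq, hrep]
    refine and_congr_left fun hi => hmem ?_
    obtain ⟨r, hr⟩ := hLK
    have hy : y = rep y + K • fun k => y k / K := mod_add_smul y K
    rw [hsum, hsum, show P (y + K • w) = P y by rw [hr, mul_smul]; exact hP _ y]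
    refine congrArg (P y + ·) (sum_congr rfl fun l _ => ?_)
    rcases eq_or_ne l i with rfl | hl
    · rw [hr, mul_smul]
      exact hu l _ (by rw [dot_smul, hw, mul_zero]) y
    · rw [hy, add_assoc, ← smul_add, hidx (rep y) l (hi ▸ hl), hidx (rep y) l (hi ▸ hl)]
  have hsplit : ∀ y, ∑ i, ind (S i) y = ind A y := fun y => by
    rw [sum_eq_single (idx (rep y))]
    · exact ind_congr ⟨fun hy => hy.1, fun hy => ⟨hy, rfl⟩⟩
    · exact fun i _ hi => ind_of_notMem fun hy => hi hy.2.symm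
    · simp
  have htile : ∀ x, ∑ i, cnt (S i) F x = 1 := fun x => by
    have := (eqn_ind hA).2 0 x
    simp only [cnt]
    rw [sum_comm, sum_congr rfl fun f _ => hsplit (x - f)]
    simpa using this
  have hper : ∀ i, ∃ M : ℤ, 0 < M ∧ ∀ w, M • w ∈ per (cnt (S i) F) := by
    intro i
    obtain ⟨τ, hτ, hst⟩ := exists_steps i (hV0 i) fun l hl =>
      Indep.exists_perp (hpw l i hl)
    obtain ⟨steps, hτs, hcong, hkill⟩ := hst K
    have hinv : ∀ l w, dot (V l) w = 0 → K • w ∈ per (cnt (S l) F) := fun l w hw =>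
      cnt_inv fun y => hS l y w hw
    refine ⟨K * dot (V i) τ, mul_pos hK0 hτ, lattice_mem_per (hinv i) fun x => ?_⟩
    have hl : ∀ h ∈ steps, h - K • τ ∈ per (cnt (S i) F) := fun h hh => by
      obtain ⟨w, hw, e⟩ := hcong h hh; rw [e]; exact hinv i w hw
    have hzero : ∀ y, Dl steps (cnt (S i) F) y = 0 := fun y => by
      rw [← Dl_others (f := fun l => cnt (S l) F) i (fun l hl => ?_) y,
        show (fun z => ∑ l, cnt (S l) F z) = fun _ => 1 from funext htile]
      · exact Dl_eq_zero hτs (fun _ => rfl) y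
      · obtain ⟨h, hh, w, hw, e⟩ := hkill l hl
        exact ⟨h, hh, e ▸ hinv l w hw⟩
    obtain ⟨n, hn⟩ : ∃ n, steps.length = n + 1 :=
      ⟨steps.length - 1, by have := List.length_pos_of_mem hτs; omega⟩
    have hbd : ∀ k : ℤ, |cnt (S i) F (x + k • K • τ)| ≤ F.card := fun k => by
      have h1 : ∀ f ∈ F, |ind (S i) (x + k • K • τ - f)| ≤ (1 : ℝ) := fun f _ => by
        obtain ⟨h1, h2⟩ := ind_mem_Icc (S i) (x + k • K • τ - f)
        rw [abs_le]; exact ⟨by linarith, h2⟩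
      refine (abs_sum_le_sum_abs _ _).trans ((sum_le_sum h1).trans ?_)
      simp
    have := Rows.const_of_bounded n (fun k : ℤ => cnt (S i) F (x + k • K • τ)) F.card 0 hbd
      (fun k _ => by rw [← hn, ← Dl_line hl x k]; exact hzero _) 0 le_rfl
    simpa using this
  choose M hM hMper using hper
  choose S' e he hev hcnt using fun i =>
    exists_periodic_piece (hV0 i) hK0 (S := S i) (hS i) F (hM i) (hMper i)
  refine ⟨{y | ∃ i, y ∈ S' i}, ∏ i, e i, Finset.prod_pos fun i _ => he i, fun x => ?_,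
    fun y w => ?_⟩
  · have hx : ∑ p ∈ (univ : Finset (Fin m)) ×ˢ F, ind (S' p.1) (x - p.2) = 1 := by
      rw [sum_product, ← htile x]
      exact sum_congr rfl fun i _ => hcnt i x
    obtain ⟨p, hp, hpS⟩ : ∃ p ∈ (univ : Finset (Fin m)) ×ˢ F, x - p.2 ∈ S' p.1 := by
      by_contra hno
      rw [sum_eq_zero fun p hp => ind_of_notMem fun hm => hno ⟨p, hp, hm⟩] at hx
      exact zero_ne_one hx
    refine ⟨p.2, ⟨(mem_product.1 hp).2, p.1, hpS⟩, ?_⟩
    rintro f ⟨hf, i, hi⟩
    by_contra hne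
    have hsub : ({(i, f), p} : Finset (Fin m × (Fin d → ℤ))) ⊆ univ ×ˢ F := by
      simp [insert_subset_iff, hf, (mem_product.1 hp).2]
    have := sum_le_sum_of_subset_of_nonneg (f := fun p => ind (S' p.1) (x - p.2)) hsub
      fun p _ _ => (ind_mem_Icc _ _).1
    rw [sum_pair (fun h => hne (congrArg Prod.snd h)), hx, ind_of_mem hi, ind_of_mem hpS] at this
    norm_num at this
  · refine exists_congr fun i => ?_
    obtain ⟨k, hk⟩ : e i ∣ ∏ i, e i := dvd_prod_of_mem _ (mem_univ i)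
    rw [hk, mul_smul]
    exact hev i _ _

end Vale.Agent.P043.Space
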