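import Mathlib
import Vale.Agent.P043.Space.Basic

/-!
Helper for P043: the two fibre conditions on a direction in `ℤ^3`.
-/

namespace Vale.Agent.P043.Space

/-- `u` and `w` are parallel. -/
def Par (u w : Fin 3 → ℤ) : Prop := ∀ i j : Fin 3, u i * w j = u j * w i

/-- Some point is alone on its line in direction `w`. -/
def LoneDir (F : Finset (Fin 3 → ℤ)) (w : Fin 3 → ℤ) : Prop :=
  ∃ h ∈ F, ∀ g ∈ F, g ≠ h → ¬ Par (g - h) w

/-- The line through `h` in direction `w` meets `F` in `h` and `h'` only. -/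
def PairDir (F : Finset (Fin 3 → ℤ)) (w h h' : Fin 3 → ℤ) : Prop :=
  h ∈ F ∧ h' ∈ F ∧ h' ≠ h ∧ Par (h' - h) w ∧
    ∀ g ∈ F, g ≠ h → g ≠ h' → ¬ Par (g - h) w

/-- Two lines in direction `w` carry exactly two points each, with gaps of different parity
levels: an odd multiple of the first is an even multiple of the second. -/
def SplitDir (F : Finset (Fin 3 → ℤ)) (w : Fin 3 → ℤ) : Prop :=
  ∃ h₁ h₁' h₂ h₂', PairDir F w h₁ h₁' ∧ PairDir F w h₂ h₂' ∧
    ∃ j j' : ℤ, Odd j ∧ Even j' ∧ j • (h₁' - h₁) = j' • (h₂' - h₂)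

/-- Every direction has a lone point or two such lines. -/
def GoodDirs (F : Finset (Fin 3 → ℤ)) : Prop :=
  ∀ w : Fin 3 → ℤ, w ≠ 0 → LoneDir F w ∨ SplitDir F w

end Vale.Agent.P043.Space
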