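import Mathlib
import Vale.Agent.P043.Space.Decomp
import Vale.Agent.P043.Space.Dir3
import Vale.Agent.P043.Rows.Plane

/-!
Helper for P043: a six-point tile of `ℤ^3` is good in every direction, or lies in a plane or on
three parallel pairs with gaps of one parity level, and then has a periodic tiling.
-/

namespace Vale.Agent.P043.Space

open Finset Matrix

theorem par_sub {p q w : Fin 3 → ℤ} (hp : Par p w) (hq : Par q w) : Par (p - q) w := fun i j => by
  simp only [Pi.sub_apply]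
  linarith [hp i j, hq i j, sub_mul (p i) (q i) (w j), sub_mul (p j) (q j) (w i)]

theorem par_zero (w : Fin 3 → ℤ) : Par 0 w := fun i j => by simp

theorem par_neg {p q w : Fin 3 → ℤ} (hp : Par (p - q) w) : Par (q - p) w := by
  have := par_sub (par_zero w) hp
  rwa [zero_sub, neg_sub] at this

theorem dot_par {v p w : Fin 3 → ℤ} (hw : w ≠ 0) (hv : dot v w = 0) (hp : Par p w) :
    dot v p = 0 := by
  obtain ⟨k, hk⟩ := Function.ne_iff.1 hw
  have : dot v p * w k = p k * dot v w := by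
    rw [dot_apply, dot_apply, sum_mul, mul_sum]
    exact sum_congr rfl fun i _ => by rw [mul_assoc, hp i k]; ring
  rw [hv, mul_zero] at this
  exact (mul_eq_zero.1 this).resolve_right hk

/-- Some nonzero vector is orthogonal to two given ones. -/
theorem exists_perp_pair (p q : Fin 3 → ℤ) : ∃ v, v ≠ 0 ∧ dot v p = 0 ∧ dot v q = 0 := by
  set M : Matrix (Fin 3) (Fin 3) ℤ := Matrix.of ![p, q, q] with hM
  have hdet : M.det = 0 :=
    Matrix.det_zero_of_row_eq (i := 1) (j := 2) (by decide) (funext fun j => by simp [hM])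
  obtain ⟨v, hv, hMv⟩ := Matrix.exists_mulVec_eq_zero_iff.2 hdet
  refine ⟨v, hv, ?_, ?_⟩
  · have := congrFun hMv 0
    simpa [hM, Matrix.mulVec, dotProduct, dot_apply, mul_comm] using this
  · have := congrFun hMv 1
    simpa [hM, Matrix.mulVec, dotProduct, dot_apply, mul_comm] using this

/-- A tile in a coset of a plane has a periodic tiling. -/
theorem periodic_of_planar {F : Finset (Fin 3 → ℤ)} {A : Set (Fin 3 → ℤ)} (hA : Tiles A F)
    {v f₀ : Fin 3 → ℤ} (hv : v ≠ 0) (hF : ∀ f ∈ F, dot v f = dot v f₀) :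
    ∃ (A' : Set (Fin 3 → ℤ)) (P : ℤ), 0 < P ∧ Tiles A' F ∧ ∀ y w, (y + P • w ∈ A' ↔ y ∈ A') := by
  classical
  obtain ⟨k, hk⟩ := Function.ne_iff.1 hv
  simp only [Pi.zero_apply] at hk
  set a := k.succAbove 0 with ha
  set b := k.succAbove 1 with hb
  let π : (Fin 3 → ℤ) → ℤ × ℤ := fun x => (x a, x b)
  let r : ℤ × ℤ → ℤ := fun y => v a * y.1 + v b * y.2
  let lift : ℤ × ℤ → (Fin 3 → ℤ) := fun y => k.insertNth (-(r y / v k)) ![y.1, y.2]
  have hdot : ∀ x, dot v x = v k * x k + r (π x) := fun x => by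
    rw [dot_apply, Fin.sum_univ_succAbove _ k, Fin.sum_univ_two]
  have hext : ∀ x y : Fin 3 → ℤ, x k = y k → π x = π y → x = y := fun x y h1 h2 => by
    funext i
    rcases Fin.eq_self_or_eq_succAbove k i with rfl | ⟨j, rfl⟩
    · exact h1
    · simp only [π, Prod.ext_iff] at h2
      fin_cases j
      · exact h2.1
      · exact h2.2
  have hinj : ∀ f ∈ F, ∀ g ∈ F, π f = π g → f = g := fun f hf g hg e => by
    refine hext f g ?_ e
    have h := (hF f hf).trans (hF g hg).symm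
    rw [hdot, hdot, e, add_left_inj] at h
    exact mul_left_cancel₀ hk h
  have hlift : ∀ y (f : Fin 3 → ℤ), dot v f = dot v f₀ →
      lift (y - (π f - π f₀)) = lift y - (f - f₀) := fun y f hf => by
    rw [hdot, hdot] at hf
    have hr : r (y - (π f - π f₀)) = r y + (f k - f₀ k) * v k := by
      have e : r (y - (π f - π f₀)) = r y - (r (π f) - r (π f₀)) := by
        simp only [r, Prod.fst_sub, Prod.snd_sub]; ring
      rw [e]; linarith [sub_mul (f k) (f₀ k) (v k)]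
    refine hext _ _ ?_ ?_
    · simp only [lift, Fin.insertNth_apply_same, Pi.sub_apply, hr]
      rw [Int.add_mul_ediv_right _ _ hk]; ring
    · simp [π, lift, ha, hb]
  set A₂ : Set (ℤ × ℤ) := {y | lift y + f₀ - f₀ ∈ A} with hA₂
  set F₂ : Finset (ℤ × ℤ) := F.image fun f => π f - π f₀ with hF₂
  have htile : Rows.TilesPlane A₂ F₂ := by
    intro y
    obtain ⟨f, ⟨hf, hfA⟩, huniq⟩ := hA (lift y + f₀)
    refine ⟨π f - π f₀, ⟨mem_image_of_mem _ hf, ?_⟩, ?_⟩
    · show lift (y - (π f - π f₀)) + f₀ - f₀ ∈ A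
      rw [hlift y f (hF f hf)]
      convert hfA using 1; abel
    · rintro g ⟨hg, hgA⟩
      obtain ⟨f', hf', rfl⟩ := mem_image.1 hg
      have : f' = f := huniq f' ⟨hf', by
        have h : lift (y - (π f' - π f₀)) + f₀ - f₀ ∈ A := hgA
        rw [hlift y f' (hF f' hf')] at h
        convert h using 1; abel⟩
      rw [this]
  obtain ⟨T, P, hP, hT, hper⟩ := Rows.periodic_of_tilesPlane htile
  let S : AddSubgroup (ℤ × ℤ) :=
    { carrier := {u | ∀ x, x + u ∈ T ↔ x ∈ T}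
      zero_mem' := fun x => by rw [add_zero]
      add_mem' := fun {p q} hp hq x => by rw [← add_assoc, hq, hp]
      neg_mem' := fun {p} hp x => by rw [← hp (x + -p), neg_add_cancel_right] }
  refine ⟨{x | π x + π f₀ ∈ T}, P, hP, fun x => ?_, fun y w => ?_⟩
  · obtain ⟨g, ⟨hg, hgT⟩, huniq⟩ := hT (π x)
    obtain ⟨f, hf, rfl⟩ := mem_image.1 hg
    have hπ : ∀ f', π (x - f') + π f₀ = π x - (π f' - π f₀) := fun f' => by
      simp only [π, Pi.sub_apply, Prod.mk_add_mk, Prod.mk_sub_mk]; ext <;> ring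
    refine ⟨f, ⟨hf, ?_⟩, fun f' ⟨hf', hfT⟩ => ?_⟩
    · show π (x - f) + π f₀ ∈ T
      rw [hπ]; exact hgT
    · have h : π (x - f') + π f₀ ∈ T := hfT
      rw [hπ] at h
      exact hinj f' hf' f hf (sub_left_inj.1 (huniq _ ⟨mem_image_of_mem _ hf', h⟩))
  · have h1 : w a • ((P, 0) : ℤ × ℤ) + w b • ((0, P) : ℤ × ℤ) ∈ S :=
      S.add_mem (S.zsmul_mem (fun x => (hper x).1) _) (S.zsmul_mem (fun x => (hper x).2) _)
    show π (y + P • w) + π f₀ ∈ T ↔ π y + π f₀ ∈ T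
    rw [show π (y + P • w) + π f₀ =
      π y + π f₀ + (w a • ((P, 0) : ℤ × ℤ) + w b • ((0, P) : ℤ × ℤ)) by
        ext <;> simp [π] <;> ring]
    exact h1 _

/-- Three pairs on parallel lines with gaps odd multiples of one vector tile periodically. -/
theorem periodic_of_pairs {F : Finset (Fin 3 → ℤ)} {t a b h₁ : Fin 3 → ℤ}
    (hdet : (Matrix.of ![t, a, b]).det ≠ 0) {m : Fin 3 → ℤ} (hm : ∀ i, Odd (m i))
    (hF : F = {h₁, h₁ + m 0 • t, h₁ + a, h₁ + a + m 1 • t, h₁ + b, h₁ + b + m 2 • t}) :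
    ∃ (A' : Set (Fin 3 → ℤ)) (P : ℤ), 0 < P ∧ Tiles A' F ∧ ∀ y w, (y + P • w ∈ A' ↔ y ∈ A') := by
  classical
  set M : Matrix (Fin 3) (Fin 3) ℤ := Matrix.of ![t, a, b] with hM
  set Δ := M.det with hΔ
  let c : (Fin 3 → ℤ) → Fin 3 → ℤ := fun x => x ᵥ* M.adjugate
  let q : (Fin 3 → ℤ) → Fin 3 → ℤ := fun x i => c x i / Δ
  let ψ : (Fin 3 → ℤ) → ZMod 6 := fun e => ((3 * e 0 + e 1 + 2 * e 2 : ℤ) : ZMod 6)
  have hc : ∀ e : Fin 3 → ℤ, c (e ᵥ* M) = Δ • e := fun e => by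
    show (e ᵥ* M) ᵥ* M.adjugate = Δ • e
    rw [Matrix.vecMul_vecMul, Matrix.mul_adjugate, Matrix.vecMul_smul, Matrix.vecMul_one]
  have hcomb : ∀ e : Fin 3 → ℤ, e ᵥ* M = e 0 • t + e 1 • a + e 2 • b := fun e => by
    funext i
    simp [hM, Matrix.vecMul, dotProduct, Fin.sum_univ_three]
  have hq : ∀ x e : Fin 3 → ℤ, ψ (q (x - (e 0 • t + e 1 • a + e 2 • b))) = ψ (q x) - ψ e := by
    intro x e
    have h : ∀ i, q (x - e ᵥ* M) i = q x i - e i := fun i => by
      show c (x - e ᵥ* M) i / Δ = c x i / Δ - e i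
      have : c (x - e ᵥ* M) = c x - Δ • e := by rw [← hc]; exact Matrix.sub_vecMul _ _ _
      rw [this, Pi.sub_apply, Pi.smul_apply, smul_eq_mul,
        show c x i - Δ * e i = c x i + (-e i) * Δ by ring, Int.add_mul_ediv_right _ _ hdet]
      ring
    rw [← hcomb]
    simp only [ψ, h]
    push_cast
    ring
  have h3 : ∀ i, (3 : ZMod 6) * (m i : ZMod 6) = 3 := fun i => by
    obtain ⟨r, hr⟩ := hm i
    rw [hr]; push_cast
    rw [show (3 : ZMod 6) * (2 * (r : ZMod 6) + 1) = 6 * (r : ZMod 6) + 3 by ring,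
      show (6 : ZMod 6) = 0 from by decide, zero_mul, zero_add]
  refine ⟨{x | ψ (q x) = 0}, 6 * Δ * Δ, by nlinarith [mul_self_pos.2 hdet], fun x => ?_, fun y w => ?_⟩
  · set z := ψ (q (x - h₁)) with hz
    have hshift : ∀ e : Fin 3 → ℤ,
        ψ (q (x - (h₁ + (e 0 • t + e 1 • a + e 2 • b)))) = z - ψ e := fun e => by
      rw [← hq, sub_sub]
    have v0 : ψ (q (x - h₁)) = z - 0 := (sub_zero z).symm
    have v3 : ψ (q (x - (h₁ + m 0 • t))) = z - 3 := by
      have := hshift ![m 0, 0, 0]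
      simpa [ψ, h3] using this
    have v1 : ψ (q (x - (h₁ + a))) = z - 1 := by
      have := hshift ![0, 1, 0]
      simpa [ψ] using this
    have v4 : ψ (q (x - (h₁ + a + m 1 • t))) = z - 4 := by
      have := hshift ![m 1, 1, 0]
      rw [show h₁ + a + m 1 • t = h₁ + (m 1 • t + a) by abel]
      simpa [ψ, h3, show (3 : ZMod 6) + 1 = 4 from by decide] using this
    have v2 : ψ (q (x - (h₁ + b))) = z - 2 := by
      have := hshift ![0, 0, 1]
      simpa [ψ] using this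
    have v5 : ψ (q (x - (h₁ + b + m 2 • t))) = z - 5 := by
      have := hshift ![m 2, 0, 1]
      rw [show h₁ + b + m 2 • t = h₁ + (m 2 • t + b) by abel]
      simpa [ψ, h3, show (3 : ZMod 6) + 2 = 5 from by decide] using this
    have huniq : ∀ f ∈ F, ∀ f' ∈ F, ψ (q (x - f)) = 0 → ψ (q (x - f')) = 0 → f' = f := by
      rw [hF]
      intro f hf f' hf' e e'
      simp only [mem_insert, mem_singleton] at hf hf'
      rcases hf with rfl | rfl | rfl | rfl | rfl | rfl <;>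
        rcases hf' with rfl | rfl | rfl | rfl | rfl | rfl <;>
        first
          | rfl
          | (simp only [v0, v1, v2, v3, v4, v5, sub_eq_zero] at e e'
             rw [e] at e'
             exact absurd e' (by decide))
    obtain ⟨f, hf, hfz⟩ : ∃ f ∈ F, ψ (q (x - f)) = 0 := by
      rw [hF]
      rcases (by decide : ∀ z : ZMod 6, z = 0 ∨ z = 3 ∨ z = 1 ∨ z = 4 ∨ z = 2 ∨ z = 5) z with
        h | h | h | h | h | h
      · exact ⟨h₁, by simp, by rw [v0, h, sub_self]⟩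
      · exact ⟨h₁ + m 0 • t, by simp, by rw [v3, h, sub_self]⟩
      · exact ⟨h₁ + a, by simp, by rw [v1, h, sub_self]⟩
      · exact ⟨h₁ + a + m 1 • t, by simp, by rw [v4, h, sub_self]⟩
      · exact ⟨h₁ + b, by simp, by rw [v2, h, sub_self]⟩
      · exact ⟨h₁ + b + m 2 • t, by simp, by rw [v5, h, sub_self]⟩
    exact ⟨f, ⟨hf, hfz⟩, fun f' ⟨hf', hfz'⟩ => huniq f hf f' hf' hfz hfz'⟩
  · have hc' : ∀ i, q (y + (6 * Δ * Δ) • w) i = q y i + 6 * (Δ * c w i) := fun i => by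
      show c (y + (6 * Δ * Δ) • w) i / Δ = c y i / Δ + 6 * (Δ * c w i)
      have : c (y + (6 * Δ * Δ) • w) = c y + (6 * Δ * Δ) • c w := by
        show (y + (6 * Δ * Δ) • w) ᵥ* _ = _
        rw [Matrix.add_vecMul, Matrix.smul_vecMul]
      rw [this, Pi.add_apply, Pi.smul_apply, smul_eq_mul,
        show 6 * Δ * Δ * c w i = 6 * (Δ * c w i) * Δ by ring, Int.add_mul_ediv_right _ _ hdet]
    show ψ (q (y + (6 * Δ * Δ) • w)) = 0 ↔ ψ (q y) = 0
    have h6 : (6 : ZMod 6) = 0 := by decide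
    simp only [ψ, hc']
    push_cast
    simp [h6]

/-- Parallel vectors whose pairwise ratios never mix parities are odd multiples of one vector. -/
theorem odd_multiples {w : Fin 3 → ℤ} (hw : w ≠ 0) {d : Fin 3 → Fin 3 → ℤ}
    (hd : ∀ i, Par (d i) w) (hd0 : ∀ i, d i ≠ 0)
    (hns : ∀ i j : Fin 3, i ≠ j → ∀ s s' : ℤ, Odd s → Even s' → s • d i ≠ s' • d j) :
    ∃ (t : Fin 3 → ℤ) (m : Fin 3 → ℤ), ∀ i, Odd (m i) ∧ d i = m i • t := by
  obtain ⟨k, hk⟩ := Function.ne_iff.1 hw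
  simp only [Pi.zero_apply] at hk
  have hprop : ∀ i j l, d i k * d j l = d j k * d i l := fun i j l => by
    refine mul_left_cancel₀ hk ?_
    linear_combination (d i k) * (hd j l k) - (d j k) * (hd i l k)
  have hn : ∀ i, d i k ≠ 0 := fun i h => hd0 i (funext fun l => by
    have := hd i l k
    rw [h, zero_mul] at this
    exact (mul_eq_zero.1 this).resolve_right hk)
  obtain ⟨g₂, α, β, hg₂, hab⟩ : ∃ g₂ α β : ℤ, (g₂ ∣ d 0 k ∧ g₂ ∣ d 1 k) ∧
      g₂ = α * d 0 k + β * d 1 k :=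
    ⟨Int.gcd (d 0 k) (d 1 k), Int.gcdA (d 0 k) (d 1 k), Int.gcdB (d 0 k) (d 1 k),
      ⟨Int.gcd_dvd_left _ _, Int.gcd_dvd_right _ _⟩,
      (Int.gcd_eq_gcd_ab (d 0 k) (d 1 k)).trans (by ring)⟩
  obtain ⟨g, γ, δ, hg, hgd⟩ : ∃ g γ δ : ℤ, (g ∣ g₂ ∧ g ∣ d 2 k) ∧ g = γ * g₂ + δ * d 2 k :=
    ⟨Int.gcd g₂ (d 2 k), Int.gcdA g₂ (d 2 k), Int.gcdB g₂ (d 2 k),
      ⟨Int.gcd_dvd_left _ _, Int.gcd_dvd_right _ _⟩,
      (Int.gcd_eq_gcd_ab g₂ (d 2 k)).trans (by ring)⟩
  set t : Fin 3 → ℤ := (γ * α) • d 0 + (γ * β) • d 1 + δ • d 2 with ht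
  have hdvd : ∀ i : Fin 3, g ∣ d i k := fun i => by
    fin_cases i
    exacts [hg.1.trans hg₂.1, hg.1.trans hg₂.2, hg.2]
  choose m hm using hdvd
  have hg0 : g ≠ 0 := fun h => hn 0 (by rw [hm 0, h, zero_mul])
  have hsum : γ * α * m 0 + γ * β * m 1 + δ * m 2 = 1 := by
    refine mul_left_cancel₀ hg0 ?_
    linear_combination (-(γ * α)) * hm 0 + (-(γ * β)) * hm 1 + (-δ) * hm 2 - hgd - γ * hab
  have hdt : ∀ i, d i = m i • t := fun i => funext fun l => by
    refine mul_left_cancel₀ hg0 ?_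
    simp only [ht, Pi.smul_apply, Pi.add_apply, smul_eq_mul]
    linear_combination (-(γ * α)) * hprop i 0 l + (-(γ * β)) * hprop i 1 l
      + (-δ) * hprop i 2 l + (γ * α * d 0 l + γ * β * d 1 l + δ * d 2 l) * hm i
      + (d i l) * hgd + (γ * d i l) * hab
  refine ⟨t, m, fun i => ⟨?_, hdt i⟩⟩
  by_contra hi
  rw [Int.not_odd_iff_even] at hi
  obtain ⟨j, hj⟩ : ∃ j, Odd (m j) := by
    by_contra hall
    simp only [not_exists, Int.not_odd_iff_even] at hall
    have : Even (1 : ℤ) := hsum ▸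
      (((hall 0).mul_left _).add ((hall 1).mul_left _)).add ((hall 2).mul_left _)
    exact Int.not_even_one this
  have hij : i ≠ j := fun e => Int.not_odd_iff_even.2 hi (e ▸ hj)
  refine hns i j hij (m j) (m i) hj hi ?_
  rw [hdt i, hdt j, smul_smul, smul_smul, mul_comm]

/-- A six-point tile of `ℤ^3` is good in every direction or has a periodic tiling. -/
theorem six_cases {F : Finset (Fin 3 → ℤ)} (hF : F.card = 6) {A : Set (Fin 3 → ℤ)}
    (hA : Tiles A F) :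
    GoodDirs F ∨ ∃ (A' : Set (Fin 3 → ℤ)) (P : ℤ), 0 < P ∧ Tiles A' F ∧ ∀ y w, (y + P • w ∈ A' ↔ y ∈ A') := by
  classical
  refine or_iff_not_imp_left.2 fun hgood => ?_
  simp only [GoodDirs, not_forall, not_or] at hgood
  obtain ⟨w, hw, hlone, hsplit⟩ := hgood
  by_cases hflat : ∃ v f₀, v ≠ 0 ∧ ∀ f ∈ F, dot v f = dot v f₀
  · obtain ⟨v, f₀, hv, hv'⟩ := hflat
    exact periodic_of_planar hA hv hv'
  have hflat' : ∀ v f₀, v ≠ 0 → ∃ f ∈ F, dot v f ≠ dot v f₀ := fun v f₀ hv => by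
    by_contra hno
    exact hflat ⟨v, f₀, hv, fun f hf => by_contra fun h => hno ⟨f, hf, h⟩⟩
  have hpartner : ∀ h ∈ F, ∃ g ∈ F, g ≠ h ∧ Par (g - h) w := fun h hh => by
    by_contra hno
    exact hlone ⟨h, hh, fun g hg hne hpar => hno ⟨g, hg, hne, hpar⟩⟩
  obtain ⟨h₁, hh₁⟩ := Finset.card_pos.1 (by omega : 0 < F.card)
  obtain ⟨g₁, hg₁, n₁, p₁⟩ := hpartner h₁ hh₁
  obtain ⟨v₀, hv₀, hv₀w, -⟩ := exists_perp_pair w w
  obtain ⟨h₂, hh₂, hne₂⟩ := hflat' v₀ h₁ hv₀
  obtain ⟨g₂, hg₂, n₂, p₂⟩ := hpartner h₂ hh₂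
  have q12 : ¬ Par (h₂ - h₁) w := fun h => hne₂ (by
    have := dot_par hw hv₀w h
    rwa [map_sub, sub_eq_zero] at this)
  obtain ⟨v, hv, hvw, hva⟩ := exists_perp_pair w (h₂ - h₁)
  rw [map_sub, sub_eq_zero] at hva
  obtain ⟨h₃, hh₃, hne₃⟩ := hflat' v h₁ hv
  obtain ⟨g₃, hg₃, n₃, p₃⟩ := hpartner h₃ hh₃
  have hlev : ∀ {g h}, Par (g - h) w → dot v g = dot v h := fun {g h} e => by
    have := dot_par hw hvw e
    rwa [map_sub, sub_eq_zero] at this
  -- points on different lines are not parallel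
  have c12 : ∀ p q, Par (p - h₁) w → Par (q - h₂) w → ¬ Par (q - p) w := fun p q hp hq h => by
    apply q12
    have := par_sub (par_sub h hq) (par_neg hp)
    rwa [show q - p - (q - h₂) - (h₁ - p) = h₂ - h₁ by abel] at this
  have c3 : ∀ p q, (Par (p - h₁) w ∨ Par (p - h₂) w) → Par (q - h₃) w → ¬ Par (q - p) w :=
    fun p q hp hq h => hne₃ (by
      rw [← hlev hq, hlev h]
      rcases hp with e | e
      · exact hlev e
      · exact (hlev e).trans hva)
  have r₁ : Par (h₁ - h₁) w := by rw [sub_self]; exact par_zero w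
  have r₂ : Par (h₂ - h₂) w := by rw [sub_self]; exact par_zero w
  have r₃ : Par (h₃ - h₃) w := by rw [sub_self]; exact par_zero w
  have d12 : ∀ p q, Par (p - h₁) w → Par (q - h₂) w → p ≠ q := fun p q hp hq e =>
    c12 p q hp hq (by rw [e, sub_self]; exact par_zero w)
  have d3 : ∀ p q, (Par (p - h₁) w ∨ Par (p - h₂) w) → Par (q - h₃) w → p ≠ q :=
    fun p q hp hq e => c3 p q hp hq (by rw [e, sub_self]; exact par_zero w)
  have hset : F = {h₁, g₁, h₂, g₂, h₃, g₃} := by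
    symm
    refine Finset.eq_of_subset_of_card_le (by simp [insert_subset_iff, hh₁, hg₁, hh₂, hg₂, hh₃, hg₃]) ?_
    rw [hF, card_insert_of_notMem, card_insert_of_notMem, card_insert_of_notMem,
      card_insert_of_notMem, card_insert_of_notMem, card_singleton]
    · simpa using n₃.symm
    · simp [d3 g₂ h₃ (Or.inr p₂) r₃, d3 g₂ g₃ (Or.inr p₂) p₃]
    · simp [n₂.symm, d3 h₂ h₃ (Or.inr r₂) r₃, d3 h₂ g₃ (Or.inr r₂) p₃]
    · simp [d12 g₁ h₂ p₁ r₂, d12 g₁ g₂ p₁ p₂, d3 g₁ h₃ (Or.inl p₁) r₃, d3 g₁ g₃ (Or.inl p₁) p₃]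
    · simp [n₁.symm, d12 h₁ h₂ r₁ r₂, d12 h₁ g₂ r₁ p₂, d3 h₁ h₃ (Or.inl r₁) r₃,
        d3 h₁ g₃ (Or.inl r₁) p₃]
  let H : Fin 3 → (Fin 3 → ℤ) := ![h₁, h₂, h₃]
  let G : Fin 3 → (Fin 3 → ℤ) := ![g₁, g₂, g₃]
  have hpair : ∀ i, PairDir F w (H i) (G i) := by
    intro i
    fin_cases i
    · refine ⟨hh₁, hg₁, n₁, p₁, fun g hg e e' => ?_⟩
      rw [hset] at hg
      simp only [mem_insert, mem_singleton] at hg
      rcases hg with rfl | rfl | rfl | rfl | rfl | rfl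
      exacts [(e rfl).elim, (e' rfl).elim, c12 h₁ _ r₁ r₂, c12 h₁ _ r₁ p₂,
        c3 h₁ _ (Or.inl r₁) r₃, c3 h₁ _ (Or.inl r₁) p₃]
    · refine ⟨hh₂, hg₂, n₂, p₂, fun g hg e e' => ?_⟩
      rw [hset] at hg
      simp only [mem_insert, mem_singleton] at hg
      rcases hg with rfl | rfl | rfl | rfl | rfl | rfl
      exacts [fun h => c12 _ h₂ r₁ r₂ (par_neg h), fun h => c12 _ h₂ p₁ r₂ (par_neg h),
        (e rfl).elim, (e' rfl).elim, c3 h₂ _ (Or.inr r₂) r₃, c3 h₂ _ (Or.inr r₂) p₃]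
    · refine ⟨hh₃, hg₃, n₃, p₃, fun g hg e e' => ?_⟩
      rw [hset] at hg
      simp only [mem_insert, mem_singleton] at hg
      rcases hg with rfl | rfl | rfl | rfl | rfl | rfl
      exacts [fun h => c3 _ h₃ (Or.inl r₁) r₃ (par_neg h),
        fun h => c3 _ h₃ (Or.inl p₁) r₃ (par_neg h),
        fun h => c3 _ h₃ (Or.inr r₂) r₃ (par_neg h),
        fun h => c3 _ h₃ (Or.inr p₂) r₃ (par_neg h), (e rfl).elim, (e' rfl).elim]
  obtain ⟨t, m, htm⟩ := odd_multiples hw (d := fun i => G i - H i) (fun i => (hpair i).2.2.2.1)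
    (fun i => sub_ne_zero.2 (hpair i).2.2.1) fun i j _ s s' hs hs' e =>
      hsplit ⟨_, _, _, _, hpair i, hpair j, s, s', hs, hs', e⟩
  have e₁ : g₁ = h₁ + m 0 • t := eq_add_of_sub_eq' (htm 0).2
  have e₂ : g₂ = h₁ + (h₂ - h₁) + m 1 • t := by
    rw [add_sub_cancel]; exact eq_add_of_sub_eq' (htm 1).2
  have e₃ : g₃ = h₁ + (h₃ - h₁) + m 2 • t := by
    rw [add_sub_cancel]; exact eq_add_of_sub_eq' (htm 2).2
  refine periodic_of_pairs (t := t) (a := h₂ - h₁) (b := h₃ - h₁) (h₁ := h₁) ?_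
    (fun i => (htm i).1) ?_
  · intro hdet
    obtain ⟨u, hu, hMu⟩ := Matrix.exists_mulVec_eq_zero_iff.2 hdet
    have k0 : dot u t = 0 := by
      simpa [Matrix.mulVec, dotProduct, dot_apply, mul_comm] using congrFun hMu 0
    have k1 : dot u (h₂ - h₁) = 0 := by
      simpa [Matrix.mulVec, dotProduct, dot_apply, mul_comm] using congrFun hMu 1
    have k2 : dot u (h₃ - h₁) = 0 := by
      simpa [Matrix.mulVec, dotProduct, dot_apply, mul_comm] using congrFun hMu 2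
    obtain ⟨f, hf, hne⟩ := hflat' u h₁ hu
    apply hne
    rw [hset] at hf
    simp only [mem_insert, mem_singleton] at hf
    rcases hf with rfl | rfl | rfl | rfl | rfl | rfl
    · rfl
    · rw [e₁, map_add, dot_smul, k0, mul_zero, add_zero]
    · linarith [map_sub (dot u) f h₁, k1]
    · rw [e₂, map_add, map_add, dot_smul, k0, k1, mul_zero, add_zero, add_zero]
    · linarith [map_sub (dot u) f h₁, k2]
    · rw [e₃, map_add, map_add, dot_smul, k0, k2, mul_zero, add_zero, add_zero]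
  · rw [hset, e₁, e₂, e₃]
    simp only [add_sub_cancel]

end Vale.Agent.P043.Space
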