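import Mathlib
import Vale.Agent.P043.Space.Fibres

/-!
Helper for P043: odd sets in space without three collinear points have a lone point in some fibre
of every map to the plane.
-/

namespace Vale.Agent.P043.Space

open Finset Module

/-- In `ℚ^3` two vectors orthogonal to two independent vectors are dependent. -/
theorem not_indep_of_perp {a b v w : Fin 3 → ℤ} (hab : Indep a b) (hav : dot a v = 0)
    (hbv : dot b v = 0) (haw : dot a w = 0) (hbw : dot b w = 0) : ¬ Indep v w := by
  intro hvw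
  let q : (Fin 3 → ℤ) → Fin 3 → ℚ := fun z k => (z k : ℚ)
  let f : (Fin 3 → ℚ) →ₗ[ℚ] Fin 2 → ℚ := Matrix.toLin' (Matrix.of ![q a, q b])
  have hval : ∀ z, f (q z) = ![((dot a z : ℤ) : ℚ), ((dot b z : ℤ) : ℚ)] := fun z => by
    funext i
    fin_cases i <;> simp [f, q, Matrix.toLin'_apply, Matrix.mulVec, dotProduct, dot_apply]
  have hsurj : Function.Surjective f := by
    obtain ⟨c, s, t, hc, h1, h2, h3, h4⟩ := hab.dual
    intro y
    refine ⟨(y 0 / c) • q s + (y 1 / c) • q t, ?_⟩
    rw [map_add, map_smul, map_smul, hval, hval, h1, h2, h3, h4]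
    have : (c : ℚ) ≠ 0 := by exact_mod_cast hc.ne'
    funext i
    fin_cases i <;> simp [this]
  have h1 := LinearMap.finrank_range_add_finrank_ker f
  rw [LinearMap.range_eq_top.2 hsurj, finrank_top, Module.finrank_fin_fun,
    Module.finrank_fin_fun] at h1
  have h2 : Submodule.span ℚ (Set.range ![q v, q w]) ≤ LinearMap.ker f := by
    rw [Submodule.span_le]
    rintro _ ⟨i, rfl⟩
    fin_cases i <;> simp [LinearMap.mem_ker, hval, hav, hbv, haw, hbw]
  have h3 := Submodule.finrank_mono h2
  rw [finrank_span_eq_card hvw, Fintype.card_fin] at h3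
  omega

/-- Odd cardinality and no three collinear points give lone fibres. -/
theorem loneFibres_of_odd {F : Finset (Fin 3 → ℤ)} (hodd : Odd F.card)
    (hcol : ∀ g ∈ F, ∀ h ∈ F, ∀ k ∈ F, g ≠ h → h ≠ k → g ≠ k →
      LinearIndependent ℚ ![fun i => (g i : ℚ) - h i, fun i => (k i : ℚ) - h i]) :
    ∀ a b : Fin 3 → ℤ, LinearIndependent ℚ ![fun k => (a k : ℚ), fun k => (b k : ℚ)] →
      ∃ h ∈ F, ∀ g ∈ F, g ≠ h →
        ∑ k, a k * g k ≠ ∑ k, a k * h k ∨ ∑ k, b k * g k ≠ ∑ k, b k * h k := by
  classical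
  intro a b hab
  by_contra hno
  push Not at hno
  choose σ hσF hσne hσa hσb using hno
  have huniq : ∀ h (hh : h ∈ F) g, g ∈ F → g ≠ h → dot a g = dot a h → dot b g = dot b h →
      g = σ h hh := by
    intro h hh g hg hgh ha hb
    by_contra hne
    apply not_indep_of_perp hab (v := g - h) (w := σ h hh - h)
    · rw [map_sub, ha, sub_self]
    · rw [map_sub, hb, sub_self]
    · rw [map_sub, sub_eq_zero]; exact hσa h hh
    · rw [map_sub, sub_eq_zero]; exact hσb h hh
    · unfold Indep
      convert hcol g hg h hh _ (hσF h hh) hgh (Ne.symm (hσne h hh)) hne using 1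
      funext i
      fin_cases i <;> funext k <;> simp
  have hinv : ∀ h (hh : h ∈ F), σ (σ h hh) (hσF h hh) = h := fun h hh =>
    (huniq _ (hσF h hh) h hh (Ne.symm (hσne h hh)) (hσa h hh).symm (hσb h hh).symm).symm
  have h0 : ((F.card : ℕ) : ZMod 2) = 0 := by
    rw [show ((F.card : ℕ) : ZMod 2) = ∑ _h ∈ F, (1 : ZMod 2) by simp]
    exact Finset.sum_involution σ (fun h hh => by decide) (fun h hh _ => hσne h hh) hσF hinv
  rw [ZMod.natCast_eq_zero_iff_even] at h0
  exact Nat.not_even_iff_odd.2 hodd h0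

end Vale.Agent.P043.Space
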